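import Vale.Agent.P154.DEMono
import Vale.Agent.P154.DETab
import Vale.Agent.P154.Avg

/-!
Soundness of the integer density evolution.
-/

namespace Vale.Agent.P154.DE

open scoped BigOperators ENNReal
open Finset

/-! ### packed vectors -/

/-- `N` is the packed form of a vector of mass at most `m` and value at least `v` -/
def R (X K : ℕ) (φ : ℕ → ℝ) (N m : ℕ) (v : ℝ) : Prop :=
  ∃ c : ℕ → ℕ, N = ∑ j ∈ range K, c j * X ^ j ∧ ∑ j ∈ range K, c j ≤ m ∧
    v ≤ ∑ j ∈ range K, (c j : ℝ) * φ j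

section R

variable {X K : ℕ} {φ : ℕ → ℝ}

theorem R.zero : R X K φ 0 0 0 := ⟨fun _ => 0, by simp, by simp, by simp⟩

theorem R.add {N N' m m' : ℕ} {v v' : ℝ} (h : R X K φ N m v) (h' : R X K φ N' m' v') :
    R X K φ (N + N') (m + m') (v + v') := by
  obtain ⟨c, e1, e2, e3⟩ := h
  obtain ⟨c', f1, f2, f3⟩ := h'
  refine ⟨fun j => c j + c' j, ?_, ?_, ?_⟩
  · rw [e1, f1, ← sum_add_distrib]
    exact sum_congr rfl fun j _ => by ring
  · rw [sum_add_distrib]; exact add_le_add e2 f2
  · have : ∑ j ∈ range K, ((c j + c' j : ℕ) : ℝ) * φ j =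
        ∑ j ∈ range K, (c j : ℝ) * φ j + ∑ j ∈ range K, (c' j : ℝ) * φ j := by
      rw [← sum_add_distrib]
      exact sum_congr rfl fun j _ => by push_cast; ring
    rw [this]
    exact add_le_add e3 f3

theorem R.mul {N m : ℕ} {v : ℝ} (a : ℕ) (h : R X K φ N m v) :
    R X K φ (a * N) (a * m) (a * v) := by
  obtain ⟨c, e1, e2, e3⟩ := h
  refine ⟨fun j => a * c j, ?_, ?_, ?_⟩
  · rw [e1, mul_sum]
    exact sum_congr rfl fun j _ => by ring
  · rw [← mul_sum]; exact Nat.mul_le_mul_left a e2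
  · have : ∑ j ∈ range K, ((a * c j : ℕ) : ℝ) * φ j = a * ∑ j ∈ range K, (c j : ℝ) * φ j := by
      rw [mul_sum]
      exact sum_congr rfl fun j _ => by push_cast; ring
    rw [this]
    exact mul_le_mul_of_nonneg_left e3 (Nat.cast_nonneg a)

theorem R.mono {N m m' : ℕ} {v v' : ℝ} (h : R X K φ N m v) (hm : m ≤ m') (hv : v' ≤ v) :
    R X K φ N m' v' := by
  obtain ⟨c, e1, e2, e3⟩ := h
  exact ⟨c, e1, e2.trans hm, hv.trans e3⟩

theorem R.single {j : ℕ} (hj : j < K) (t : ℕ) : R X K φ (t * X ^ j) t (t * φ j) := by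
  have hm := Finset.mem_range.2 hj
  refine ⟨fun i => if i = j then t else 0, ?_, ?_, ?_⟩
  · rw [Finset.sum_eq_single_of_mem j hm (fun i _ h => by simp [h])]; simp
  · rw [Finset.sum_eq_single_of_mem j hm (fun i _ h => by simp [h])]; simp
  · rw [Finset.sum_eq_single_of_mem j hm (fun i _ h => by simp [h])]; simp

end R

/-! ### the grid -/

def pos (c b : ℕ) : ℕ := c * (c + 1) / 2 + b

theorem tri_succ (c : ℕ) : c * (c + 1) / 2 = c * (c - 1) / 2 + c := by
  cases c with
  | zero => rfl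
  | succ c =>
    have : (c + 1) * (c + 1 + 1) = (c + 1) * (c + 1 - 1) + 2 * (c + 1) := by
      rw [Nat.add_sub_cancel]; ring
    rw [this, Nat.add_mul_div_left _ _ (by norm_num)]

theorem pos_lt {n c b : ℕ} (hc : c ≤ n) (hb : b ≤ c) : pos c b < (n + 1) * (n + 2) / 2 := by
  have h1 : c * (c + 1) / 2 ≤ n * (n + 1) / 2 :=
    Nat.div_le_div_right (Nat.mul_le_mul hc (by omega))
  have h2 := tri_succ (n + 1)
  have h3 : (n + 1) * (n + 1 - 1) / 2 = n * (n + 1) / 2 := by
    rw [Nat.add_sub_cancel, Nat.mul_comm]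
  have h4 : (n + 1) * (n + 1 + 1) = (n + 1) * (n + 2) := rfl
  rw [pos]
  omega

/-- the grid vectors, mass `6 n` -/
noncomputable def gv (n a b : ℕ) : V :=
  ![6 * a + 3 * b + 2 * ((n : ℝ) - a - b), 3 * b + 2 * ((n : ℝ) - a - b), 2 * ((n : ℝ) - a - b)]

theorem gv_pos {n a b : ℕ} (h : a + b ≤ n) : Pos (gv n a b) := by
  have h' : (a : ℝ) + b ≤ n := by exact_mod_cast h
  have ha : (0 : ℝ) ≤ a := Nat.cast_nonneg a
  have hb : (0 : ℝ) ≤ b := Nat.cast_nonneg b
  intro i
  fin_cases i <;> simp [gv] <;> linarith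

noncomputable def vv (x y z : ℕ) : V := ![(x : ℝ), (y : ℝ), (z : ℝ)]

theorem vv_pos (x y z : ℕ) : Pos (vv x y z) := by
  intro i
  fin_cases i <;> simp [vv]

/-- `φ j` is the value at the grid point number `j`, normalised to mass one -/
def IsGrid (n : ℕ) (Φ : V → ℝ) (φ : ℕ → ℝ) : Prop :=
  ∀ a b, a + b ≤ n → φ (pos (n - a) b) = Φ (gv n a b) / (6 * n)

section cell

variable {n B : ℕ} {Φ : V → ℝ} {φ : ℕ → ℝ}

theorem R_pt (hg : IsGrid n Φ φ) {X t a b q : ℕ} (ht : t = 0 ∨ a + b ≤ n)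
    (hq : t = 0 ∨ q = pos (n - a) b) :
    R X ((n + 1) * (n + 2) / 2) φ (t * X ^ q) t (t * Φ (gv n a b) / (6 * n)) := by
  rcases Nat.eq_zero_or_pos t with rfl | h0
  · simpa using R.zero
  · have h1 : a + b ≤ n := by omega
    have h2 : q = pos (n - a) b := by omega
    have h3 : q < (n + 1) * (n + 2) / 2 := by
      rw [h2]; exact pos_lt (by omega) (by omega)
    have := R.single (X := X) (φ := φ) h3 t
    rwa [h2, hg a b h1, ← h2, ← mul_div_assoc] at this

/-- convexity on a cell -/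
theorem three (hΦ : Sub Φ) (hn : 0 < n) {x y z a1 b1 t1 a2 b2 t2 a3 b3 t3 : ℕ}
    (h1 : t1 = 0 ∨ a1 + b1 ≤ n) (h2 : t2 = 0 ∨ a2 + b2 ≤ n) (h3 : t3 = 0 ∨ a3 + b3 ≤ n)
    (es : x + y + z = t1 + t2 + t3)
    (ea : n * (x : ℝ) - n * y = t1 * a1 + t2 * a2 + t3 * a3)
    (eb : 2 * n * (y : ℝ) - 2 * n * z = t1 * b1 + t2 * b2 + t3 * b3) :
    Φ (vv x y z) ≤ t1 * Φ (gv n a1 b1) / (6 * n) + t2 * Φ (gv n a2 b2) / (6 * n) +
      t3 * Φ (gv n a3 b3) / (6 * n) := by
  have hn' : (0 : ℝ) < n := by exact_mod_cast hn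
  have key : ∀ {a b t : ℕ}, (t = 0 ∨ a + b ≤ n) → Pos (fun i => (t : ℝ) * gv n a b i) ∧
      Φ (fun i => (t : ℝ) * gv n a b i) = t * Φ (gv n a b) := by
    intro a b t h
    rcases Nat.eq_zero_or_pos t with rfl | h0
    · refine ⟨fun i => by simp, ?_⟩
      have := sub_zero hΦ
      simpa using this
    · have hp := gv_pos (n := n) (a := a) (b := b) (by omega)
      exact ⟨fun i => mul_nonneg (Nat.cast_nonneg t) (hp i), hΦ.smul _ _ (Nat.cast_nonneg t) hp⟩
  obtain ⟨p1, e1⟩ := key h1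
  obtain ⟨p2, e2⟩ := key h2
  obtain ⟨p3, e3⟩ := key h3
  have es' : (x : ℝ) + y + z = t1 + t2 + t3 := by exact_mod_cast es
  have e : vv x y z = fun i => (1 / (6 * (n : ℝ))) * ((t1 * gv n a1 b1 i + t2 * gv n a2 b2 i) +
      t3 * gv n a3 b3 i) := by
    funext i
    have h6 : (6 * (n : ℝ)) ≠ 0 := by positivity
    rw [one_div, eq_inv_mul_iff_mul_eq₀ h6]
    fin_cases i
    · simp only [vv, gv, Fin.zero_eta, Matrix.cons_val_zero]
      linear_combination 4 * ea + eb + 2 * n * es'
    · simp only [vv, gv, Fin.mk_one, Matrix.cons_val_one, Matrix.cons_val_zero]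
      linear_combination 3 * eb + 2 * n * es' - 2 * ea - 2 * eb
    · simp only [vv, gv]
      simp
      linear_combination 2 * n * es' - 2 * ea - 2 * eb
  have p12 : Pos fun i => (t1 : ℝ) * gv n a1 b1 i + t2 * gv n a2 b2 i :=
    fun i => add_nonneg (p1 i) (p2 i)
  have p123 : Pos fun i => ((t1 : ℝ) * gv n a1 b1 i + t2 * gv n a2 b2 i) + t3 * gv n a3 b3 i :=
    fun i => add_nonneg (p12 i) (p3 i)
  rw [e, hΦ.smul _ _ (by positivity) p123]
  have q1 := hΦ.add _ _ p12 p3
  have q2 := hΦ.add _ _ p1 p2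
  rw [e1, e2] at q2
  rw [e3] at q1
  have : (1 / (6 * (n : ℝ))) * Φ (fun i => ((t1 : ℝ) * gv n a1 b1 i + t2 * gv n a2 b2 i) +
      t3 * gv n a3 b3 i) ≤ (1 / (6 * (n : ℝ))) * (t1 * Φ (gv n a1 b1) + t2 * Φ (gv n a2 b2) +
      t3 * Φ (gv n a3 b3)) := mul_le_mul_of_nonneg_left (by linarith) (by positivity)
  refine this.trans (le_of_eq ?_)
  field_simp

theorem cell_eq (B s c ra b rb : ℕ) : cell B s c ra b rb =
    (if ra + rb ≤ s then (s - (ra + rb)) * (2 ^ B) ^ c + ra + rb * (2 ^ B) ^ (c + 1)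
      else (ra + rb - s) * (2 ^ B) + (s - rb) + (s - ra) * (2 ^ B) ^ (c + 1)) *
      (2 ^ B) ^ (c * (c - 1) / 2 + b) := by
  have e : cell B s c ra b rb =
      (Bool.rec (motive := fun _ => Nat)
        ((ra + rb - s) <<< B + (s - rb) + (s - ra) <<< (B * (c + 1)))
        ((s - (ra + rb)) <<< (B * c) + ra + rb <<< (B * (c + 1)))
        (Nat.ble (ra + rb) s)) <<< (B * (c * (c - 1) / 2 + b)) := rfl
  rw [e]
  by_cases h : ra + rb ≤ s
  · rw [if_pos h, Nat.ble_eq_true_of_le h]
    simp only [Nat.shiftLeft_eq, pow_mul]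
  · have h' : Nat.ble (ra + rb) s = false := by
      cases hb : Nat.ble (ra + rb) s with
      | false => rfl
      | true => exact absurd (Nat.le_of_ble_eq_true hb) h
    rw [if_neg h, h']
    simp only [Nat.shiftLeft_eq, pow_mul]

theorem R_split (hΦ : Sub Φ) (hg : IsGrid n Φ φ) (hn : 0 < n) {x y z : ℕ} (hxy : y ≤ x)
    (hyz : z ≤ y) :
    R (2 ^ B) ((n + 1) * (n + 2) / 2) φ (split n B x y z) (x + y + z) (Φ (vv x y z)) := by
  have e : split n B x y z = cell B (x + y + z) (n - (n * (x - y)) / (x + y + z))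
    ((n * (x - y)) % (x + y + z)) ((2 * n * (y - z)) / (x + y + z))
    ((2 * n * (y - z)) % (x + y + z)) := rfl
  rw [e, cell_eq]
  obtain ⟨s, hs⟩ : ∃ s, s = x + y + z := ⟨_, rfl⟩
  rw [← hs]
  rcases Nat.eq_zero_or_pos s with h0 | h0
  · have hx : x = 0 := by omega
    have hy : y = 0 := by omega
    have hz : z = 0 := by omega
    subst hx hy hz
    rw [h0]
    have hv : vv 0 0 0 = fun _ => 0 := by
      funext i; fin_cases i <;> simp [vv]
    rw [hv, sub_zero hΦ]
    simpa using R.zero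
  · obtain ⟨u, rfl⟩ := Nat.exists_eq_add_of_le hxy
    obtain ⟨v, rfl⟩ := Nat.exists_eq_add_of_le hyz
    have e1 : z + v + u - (z + v) = u := by omega
    have e2 : z + v - z = v := by omega
    rw [e1, e2]
    obtain ⟨a, ha⟩ : ∃ a, a = n * u / s := ⟨_, rfl⟩
    obtain ⟨ra, hra⟩ : ∃ ra, ra = n * u % s := ⟨_, rfl⟩
    obtain ⟨b, hb⟩ : ∃ b, b = 2 * n * v / s := ⟨_, rfl⟩
    obtain ⟨rb, hrb⟩ : ∃ rb, rb = 2 * n * v % s := ⟨_, rfl⟩
    have da : s * a + ra = n * u := by rw [ha, hra]; exact Nat.div_add_mod _ _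
    have db : s * b + rb = 2 * n * v := by rw [hb, hrb]; exact Nat.div_add_mod _ _
    have la : ra < s := by rw [hra]; exact Nat.mod_lt _ h0
    have lb : rb < s := by rw [hrb]; exact Nat.mod_lt _ h0
    rw [← ha, ← hra, ← hb, ← hrb]
    have tot : s * (a + b) + (ra + rb) + 3 * n * z = n * s := by
      rw [hs] at da db ⊢
      nlinarith
    have hab : a + b ≤ n := by
      have : s * (a + b) ≤ s * n := by rw [Nat.mul_comm s n]; omega
      exact Nat.le_of_mul_le_mul_left this h0
    have hab1 : 0 < ra + rb → a + b + 1 ≤ n := by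
      intro h
      have : s * (a + b) < s * n := by rw [Nat.mul_comm s n]; omega
      exact Nat.lt_of_mul_lt_mul_left this
    have hab2 : s < ra + rb → a + b + 2 ≤ n := by
      intro h
      have : s * (a + b + 1) < s * n := by
        rw [Nat.mul_comm s n, Nat.mul_add]; omega
      exact Nat.lt_of_mul_lt_mul_left this
    have ts := tri_succ (n - a)
    have dar : (s : ℝ) * a + ra = n * u := by exact_mod_cast da
    have dbr : (s : ℝ) * b + rb = 2 * n * v := by exact_mod_cast db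
    by_cases h : ra + rb ≤ s
    · rw [if_pos h]
      have g1 := R_pt (X := 2 ^ B) hg (t := s - (ra + rb)) (a := a) (b := b)
        (q := n - a + ((n - a) * (n - a - 1) / 2 + b)) (Or.inr hab)
        (Or.inr (by rw [pos]; omega))
      have g2 := R_pt (X := 2 ^ B) hg (t := ra) (a := a + 1) (b := b)
        (q := (n - a) * (n - a - 1) / 2 + b)
        (by rcases Nat.eq_zero_or_pos ra with h | h
            · exact Or.inl h
            · exact Or.inr (by have := hab1 (by omega); omega))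
        (by rcases Nat.eq_zero_or_pos ra with h | h
            · exact Or.inl h
            · refine Or.inr ?_
              have := hab1 (by omega)
              rw [pos, show n - (a + 1) = n - a - 1 by omega,
                show n - a - 1 + 1 = n - a by omega, Nat.mul_comm])
      have g3 := R_pt (X := 2 ^ B) hg (t := rb) (a := a) (b := b + 1)
        (q := n - a + 1 + ((n - a) * (n - a - 1) / 2 + b))
        (by rcases Nat.eq_zero_or_pos rb with h | h
            · exact Or.inl h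
            · exact Or.inr (by have := hab1 (by omega); omega))
        (Or.inr (by rw [pos]; omega))
      have hN : ((s - (ra + rb)) * (2 ^ B) ^ (n - a) + ra + rb * (2 ^ B) ^ (n - a + 1)) *
          (2 ^ B) ^ ((n - a) * (n - a - 1) / 2 + b) =
          (s - (ra + rb)) * (2 ^ B) ^ (n - a + ((n - a) * (n - a - 1) / 2 + b)) +
          ra * (2 ^ B) ^ ((n - a) * (n - a - 1) / 2 + b) +
          rb * (2 ^ B) ^ (n - a + 1 + ((n - a) * (n - a - 1) / 2 + b)) := by
        rw [pow_add (2 ^ B) (n - a), pow_add (2 ^ B) (n - a + 1)]; ring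
      rw [hN]
      have es : z + v + u + (z + v) + z = (s - (ra + rb)) + ra + rb := by omega
      refine ((g1.add g2).add g3).mono (by omega) ?_
      refine three hΦ hn (Or.inr hab) ?_ ?_ es ?_ ?_
      · rcases Nat.eq_zero_or_pos ra with h | h
        · exact Or.inl h
        · exact Or.inr (by have := hab1 (by omega); omega)
      · rcases Nat.eq_zero_or_pos rb with h | h
        · exact Or.inl h
        · exact Or.inr (by have := hab1 (by omega); omega)
      · push_cast [Nat.cast_sub h]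
        linear_combination dar.symm
      · push_cast [Nat.cast_sub h]
        linear_combination dbr.symm
    · rw [if_neg h]
      have hab' := hab2 (by omega)
      have g1 := R_pt (X := 2 ^ B) hg (t := ra + rb - s) (a := a + 1) (b := b + 1)
        (q := 1 + ((n - a) * (n - a - 1) / 2 + b)) (Or.inr (by omega))
        (Or.inr (by
          rw [pos, show n - (a + 1) = n - a - 1 by omega,
            show n - a - 1 + 1 = n - a by omega, Nat.mul_comm (n - a - 1)]
          omega))
      have g2 := R_pt (X := 2 ^ B) hg (t := s - rb) (a := a + 1) (b := b)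
        (q := (n - a) * (n - a - 1) / 2 + b) (Or.inr (by omega))
        (Or.inr (by
          rw [pos, show n - (a + 1) = n - a - 1 by omega,
            show n - a - 1 + 1 = n - a by omega, Nat.mul_comm (n - a - 1)]))
      have g3 := R_pt (X := 2 ^ B) hg (t := s - ra) (a := a) (b := b + 1)
        (q := n - a + 1 + ((n - a) * (n - a - 1) / 2 + b)) (Or.inr (by omega))
        (Or.inr (by rw [pos]; omega))
      have hN : ((ra + rb - s) * (2 ^ B) + (s - rb) + (s - ra) * (2 ^ B) ^ (n - a + 1)) *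
          (2 ^ B) ^ ((n - a) * (n - a - 1) / 2 + b) =
          (ra + rb - s) * (2 ^ B) ^ (1 + ((n - a) * (n - a - 1) / 2 + b)) +
          (s - rb) * (2 ^ B) ^ ((n - a) * (n - a - 1) / 2 + b) +
          (s - ra) * (2 ^ B) ^ (n - a + 1 + ((n - a) * (n - a - 1) / 2 + b)) := by
        rw [pow_add (2 ^ B) 1, pow_add (2 ^ B) (n - a + 1), pow_one]; ring
      rw [hN]
      have es : z + v + u + (z + v) + z = (ra + rb - s) + (s - rb) + (s - ra) := by omega
      refine ((g1.add g2).add g3).mono (by omega) ?_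
      refine three hΦ hn (Or.inr (by omega)) (Or.inr (by omega)) (Or.inr (by omega)) es ?_ ?_
      · push_cast [Nat.cast_sub (show s ≤ ra + rb by omega), Nat.cast_sub lb.le,
          Nat.cast_sub la.le]
        linear_combination dar.symm
      · push_cast [Nat.cast_sub (show s ≤ ra + rb by omega), Nat.cast_sub lb.le,
          Nat.cast_sub la.le]
        linear_combination dbr.symm

end cell

/-! ### rows -/

theorem ble_rec (F T a b : ℕ) :
    Bool.rec (motive := fun _ => Nat) F T (Nat.ble a b) = if a ≤ b then T else F := by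
  by_cases h : a ≤ b
  · rw [if_pos h, Nat.ble_eq_true_of_le h]
  · have h' : Nat.ble a b = false := by
      cases hb : Nat.ble a b with
      | false => rfl
      | true => exact absurd (Nat.le_of_ble_eq_true hb) h
    rw [if_neg h, h']

theorem sortk_eq (n B x y z : ℕ) : sortk n B x y z =
    if y ≤ x then (if z ≤ y then split n B x y z
      else if z ≤ x then split n B x z y else split n B z x y)
    else (if z ≤ x then split n B y x z
      else if z ≤ y then split n B y z x else split n B z y x) := by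
  rw [sortk, ble_rec, ble_rec, ble_rec, ble_rec, ble_rec]

/-- symmetric functions -/
def Sym (Φ : V → ℝ) : Prop := ∀ (g : Equiv.Perm (Fin 3)) (x : V), Φ (perm g x) = Φ x

section rows

variable {n B : ℕ} {Φ : V → ℝ} {φ : ℕ → ℝ}

theorem vv_swap (hs : Sym Φ) (x y z : ℕ) : Φ (vv y x z) = Φ (vv x y z) := by
  have e : vv y x z = perm (Equiv.swap 0 1) (vv x y z) := by
    funext i; fin_cases i <;> rfl
  rw [e, hs]

theorem vv_swap' (hs : Sym Φ) (x y z : ℕ) : Φ (vv x z y) = Φ (vv x y z) := by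
  have e : vv x z y = perm (Equiv.swap 1 2) (vv x y z) := by
    funext i; fin_cases i <;> rfl
  rw [e, hs]

theorem R_sortk (hΦ : Sub Φ) (hs : Sym Φ) (hg : IsGrid n Φ φ) (hn : 0 < n) (x y z : ℕ) :
    R (2 ^ B) ((n + 1) * (n + 2) / 2) φ (sortk n B x y z) (x + y + z) (Φ (vv x y z)) := by
  rw [sortk_eq]
  split_ifs with h1 h2 h3 h4 h5
  · exact R_split hΦ hg hn h1 h2
  · refine (R_split hΦ hg hn h3 (by omega)).mono (by omega) (le_of_eq ?_)
    rw [vv_swap' hs]
  · refine (R_split hΦ hg hn (by omega) h1).mono (by omega) (le_of_eq ?_)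
    rw [vv_swap hs x z y, vv_swap' hs]
  · refine (R_split hΦ hg hn (by omega) h4).mono (by omega) (le_of_eq ?_)
    rw [vv_swap hs x y z]
  · refine (R_split hΦ hg hn h5 (by omega)).mono (by omega) (le_of_eq ?_)
    rw [vv_swap' hs y x z, vv_swap hs x y z]
  · refine (R_split hΦ hg hn (by omega) (by omega)).mono (by omega) (le_of_eq ?_)
    rw [vv_swap hs y z x, vv_swap' hs y x z, vv_swap hs x y z]

/-- sum over the relative positions of two vectors -/
noncomputable def E6 (Φ : V → ℝ) (x y : V) : ℝ := ∑ g : Equiv.Perm (Fin 3), Φ (had x (perm g y))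

theorem E6_comm (hs : Sym Φ) (x y : V) : E6 Φ x y = E6 Φ y x := by
  have e : ∀ g : Equiv.Perm (Fin 3), Φ (had x (perm g y)) = Φ (had y (perm g⁻¹ x)) := by
    intro g
    rw [← hs g⁻¹ (had x (perm g y)), had_comm y]
    congr 1
    funext i
    simp [perm, had]
  rw [E6, E6, Finset.sum_congr rfl fun g _ => e g]
  exact Equiv.sum_comp (Equiv.inv (Equiv.Perm (Fin 3))) fun g => Φ (had y (perm g x))

theorem had_vv (x y z u v w : ℕ) :
    had (vv x y z) ![(u : ℝ), (v : ℝ), (w : ℝ)] = vv (x * u) (y * v) (z * w) := by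
  funext i; fin_cases i <;> simp [had, vv]

theorem R_row (hΦ : Sub Φ) (hs : Sym Φ) (hg : IsGrid n Φ φ) (hn : 0 < n) (x y z u v w : ℕ) :
    R (2 ^ B) ((n + 1) * (n + 2) / 2) φ (row n B x y z u v w)
      (2 * ((x + y + z) * (u + v + w))) (E6 Φ (vv x y z) (vv u v w)) := by
  have h := fun a b c => R_sortk (B := B) hΦ hs hg hn a b c
  have h6 := ((((h (x * u) (y * v) (z * w)).add (h (x * v) (y * w) (z * u))).add
    ((h (x * w) (y * u) (z * v)).add (h (x * u) (y * w) (z * v)))).add
    ((h (x * v) (y * u) (z * w)).add (h (x * w) (y * v) (z * u))))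
  refine h6.mono (le_of_eq (by ring)) (le_of_eq ?_)
  rw [E6, sum_perm_eq (fun y' => Φ (had (vv x y z) y')), sum6]
  have e0 : vv u v w 0 = u := rfl
  have e1 : vv u v w 1 = v := rfl
  have e2 : vv u v w 2 = w := rfl
  simp only [e0, e1, e2, had_vv]
  ring

/-! ### weighted sums over lists of atoms -/

/-- zipped sum -/
noncomputable def sw : List ℕ → L3 → (ℕ → ℕ → ℕ → ℝ) → ℝ
  | [], _, _ => 0
  | _ :: _, .nil, _ => 0
  | w :: ws, .cons x y z l, f => w * f x y z + sw ws l f

def AllTot (τ : ℕ) : L3 → Prop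
  | .nil => True
  | .cons x y z l => x + y + z = τ ∧ AllTot τ l

theorem sw_nil (ws : List ℕ) (f : ℕ → ℕ → ℕ → ℝ) : sw ws .nil f = 0 := by
  cases ws <;> rfl

theorem sw_add (f g : ℕ → ℕ → ℕ → ℝ) : ∀ (ws : List ℕ) (l : L3),
    sw ws l (fun x y z => f x y z + g x y z) = sw ws l f + sw ws l g
  | [], l => by simp [sw]
  | w :: ws, .nil => by simp [sw]
  | w :: ws, .cons x y z l => by
    rw [sw, sw, sw, sw_add f g ws l]; ring

theorem sw_mul (a : ℝ) (f : ℕ → ℕ → ℕ → ℝ) : ∀ (ws : List ℕ) (l : L3),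
    sw ws l (fun x y z => a * f x y z) = a * sw ws l f
  | [], l => by simp [sw]
  | w :: ws, .nil => by simp [sw]
  | w :: ws, .cons x y z l => by
    rw [sw, sw, sw_mul a f ws l]; ring

theorem sw_congr {f g : ℕ → ℕ → ℕ → ℝ} (h : ∀ x y z, f x y z = g x y z) (ws : List ℕ) (l : L3) :
    sw ws l f = sw ws l g := by
  have : f = g := by funext x y z; exact h x y z
  rw [this]

theorem R_rows2 (hΦ : Sub Φ) (hs : Sym Φ) (hg : IsGrid n Φ φ) (hn : 0 < n) {τ x y z : ℕ}
    (ht : x + y + z = τ) : ∀ (l : L3) (ws : List ℕ), AllTot τ l →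
    R (2 ^ B) ((n + 1) * (n + 2) / 2) φ (dot (rows2 n B x y z l) ws)
      (4 * (τ * τ) * ws.sum) (2 * sw ws l fun u v w => E6 Φ (vv x y z) (vv u v w))
  | .nil, ws, _ => by
    rw [sw_nil]
    exact R.zero.mono (Nat.zero_le _) (by simp)
  | .cons u v w l, [], _ => by
    exact R.zero.mono (Nat.zero_le _) (by simp [sw])
  | .cons u v w l, a :: ws, hl => by
    have h1 := ((R_row (B := B) hΦ hs hg hn x y z u v w).mul 2).mul a
    have h2 := R_rows2 hΦ hs hg hn ht l ws hl.2
    refine (h1.add h2).mono (le_of_eq ?_) (le_of_eq ?_)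
    · rw [ht, hl.1, List.sum_cons]; ring
    · rw [sw]; push_cast; ring

theorem R_quad (hΦ : Sub Φ) (hs : Sym Φ) (hg : IsGrid n Φ φ) (hn : 0 < n) {τ : ℕ} :
    ∀ (l : L3) (ws : List ℕ), AllTot τ l →
    R (2 ^ B) ((n + 1) * (n + 2) / 2) φ (quad (tens n B l) ws) (2 * (τ * τ) * ws.sum ^ 2)
      (sw ws l fun x y z => sw ws l fun u v w => E6 Φ (vv x y z) (vv u v w))
  | .nil, ws, _ => by
    rw [sw_nil]
    exact R.zero.mono (Nat.zero_le _) (by simp)
  | .cons u v w l, [], _ => by
    exact R.zero.mono (Nat.zero_le _) (by simp [sw])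
  | .cons x y z l, a :: ws, hl => by
    have h1 := (R_row (B := B) hΦ hs hg hn x y z x y z).mul a
    have h2 := R_rows2 (B := B) hΦ hs hg hn hl.1 l ws hl.2
    have h3 := R_quad hΦ hs hg hn l ws hl.2
    refine (((h1.add h2).mul a).add h3).mono (le_of_eq ?_) (le_of_eq ?_)
    · rw [hl.1, List.sum_cons]; ring
    · have e : sw ws l (fun u v w => (a : ℝ) * E6 Φ (vv u v w) (vv x y z) +
          sw ws l fun u' v' w' => E6 Φ (vv u v w) (vv u' v' w')) =
          a * sw ws l (fun u v w => E6 Φ (vv x y z) (vv u v w)) +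
          sw ws l fun u v w => sw ws l fun u' v' w' => E6 Φ (vv u v w) (vv u' v' w') := by
        rw [sw_add, sw_mul, sw_congr (fun u v w => E6_comm hs (vv u v w) (vv x y z))]
      rw [sw]
      simp only [sw]
      rw [e]
      ring

end rows

/-! ### extraction of the digits -/

theorem digs_eq {X : ℕ} (hX : 0 < X) (den : ℕ) : ∀ (K : ℕ) (c : ℕ → ℕ), (∀ j < K, c j < X) →
    digs X den K (∑ j ∈ range K, c j * X ^ j) = (List.range K).map fun j => c j / den
  | 0, c, _ => rfl
  | K + 1, c, h => by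
    have e : ∑ j ∈ range (K + 1), c j * X ^ j =
        c 0 + X * ∑ j ∈ range K, c (j + 1) * X ^ j := by
      rw [sum_range_succ', pow_zero, mul_one, add_comm, mul_sum]
      congr 1
      exact sum_congr rfl fun j _ => by rw [pow_succ]; ring
    have e1 : (c 0 + X * ∑ j ∈ range K, c (j + 1) * X ^ j) % X = c 0 := by
      rw [Nat.add_mul_mod_self_left, Nat.mod_eq_of_lt (h 0 (Nat.succ_pos K))]
    have e2 : (c 0 + X * ∑ j ∈ range K, c (j + 1) * X ^ j) / X =
        ∑ j ∈ range K, c (j + 1) * X ^ j := by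
      rw [Nat.add_mul_div_left _ _ hX, Nat.div_eq_of_lt (h 0 (Nat.succ_pos K)), zero_add]
    have ih := digs_eq hX den K (fun j => c (j + 1)) fun j hj => h (j + 1) (by omega)
    have hd : digs X den (K + 1) (∑ j ∈ range (K + 1), c j * X ^ j) =
        (∑ j ∈ range (K + 1), c j * X ^ j) % X / den ::
          digs X den K ((∑ j ∈ range (K + 1), c j * X ^ j) / X) := rfl
    rw [hd, e, e1, e2, ih, List.range_succ_eq_map, List.map_cons, List.map_map]
    rfl

/-- the `j`-th atom -/
def atom : L3 → ℕ → ℕ × ℕ × ℕ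
  | .nil, _ => (0, 0, 0)
  | .cons x y z _, 0 => (x, y, z)
  | .cons _ _ _ l, j + 1 => atom l j

def len : L3 → ℕ
  | .nil => 0
  | .cons _ _ _ l => len l + 1

theorem sw_map (f : ℕ → ℕ → ℕ → ℝ) : ∀ (K : ℕ) (l : L3) (c : ℕ → ℕ), len l = K →
    sw ((List.range K).map c) l f =
      ∑ j ∈ range K, (c j : ℝ) * f (atom l j).1 (atom l j).2.1 (atom l j).2.2
  | 0, l, c, _ => by simp [sw]
  | K + 1, .nil, c, h => by simp [len] at h
  | K + 1, .cons x y z l, c, h => by
    have ih := sw_map f K l (fun j => c (j + 1)) (by simpa [len] using h)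
    rw [List.range_succ_eq_map, List.map_cons, List.map_map, sw, sum_range_succ', add_comm]
    congr 1

theorem lsum_eq : ∀ l : List ℕ, lsum l = l.sum
  | [] => rfl
  | a :: l => by
    have : lsum (a :: l) = a + lsum l := rfl
    rw [this, lsum_eq l, List.sum_cons]

theorem sum_map_range (c : ℕ → ℕ) (K : ℕ) : ((List.range K).map c).sum = ∑ j ∈ range K, c j := by
  induction K with
  | zero => rfl
  | succ K ih => rw [List.range_succ, List.map_append, List.sum_append, ih, sum_range_succ]; simp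

/-- the grid as a list -/
structure GridList (n : ℕ) (g : L3) : Prop where
  len : len g = (n + 1) * (n + 2) / 2
  tot : AllTot (6 * n) g
  get : ∀ a b, a + b ≤ n → atom g (pos (n - a) b) =
    (6 * a + 3 * b + 2 * (n - a - b), 3 * b + 2 * (n - a - b), 2 * (n - a - b))

noncomputable def phi (n : ℕ) (g : L3) (Φ : V → ℝ) (j : ℕ) : ℝ :=
  Φ (vv (atom g j).1 (atom g j).2.1 (atom g j).2.2) / (6 * n)

theorem GridList.isGrid {n : ℕ} {g : L3} (h : GridList n g) (Φ : V → ℝ) :
    IsGrid n Φ (phi n g Φ) := by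
  intro a b hab
  rw [phi, h.get a b hab]
  have e : vv (6 * a + 3 * b + 2 * (n - a - b)) (3 * b + 2 * (n - a - b)) (2 * (n - a - b)) =
      gv n a b := by
    have h1 : ((n - a - b : ℕ) : ℝ) = (n : ℝ) - a - b := by
      rw [Nat.cast_sub (by omega), Nat.cast_sub (by omega)]
    funext i
    fin_cases i <;> simp [vv, gv, h1]
  rw [← e]

theorem atom_tot {τ : ℕ} : ∀ {l : L3} {j : ℕ}, AllTot τ l → j < len l →
    (atom l j).1 + (atom l j).2.1 + (atom l j).2.2 = τ
  | .nil, j, _, h => by simp [len] at h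
  | .cons x y z l, 0, ht, _ => ht.1
  | .cons x y z l, j + 1, ht, h => atom_tot (l := l) (j := j) ht.2 (by simpa [len] using h)

/-- the vertex is the largest point -/
theorem phi_le {n : ℕ} (hn : 0 < n) {g : L3} (h : GridList n g) {Φ : V → ℝ} (hΦ : Sub Φ)
    (hs : Sym Φ) {j : ℕ} (hj : j < (n + 1) * (n + 2) / 2) : phi n g Φ j ≤ phi n g Φ 0 := by
  have hn' : (0 : ℝ) < n := by exact_mod_cast hn
  have h0 := h.get n 0 (by omega)
  rw [Nat.sub_self, show pos 0 0 = 0 from rfl] at h0
  simp only [mul_zero, Nat.sub_zero, Nat.sub_self, add_zero] at h0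
  have ht := atom_tot h.tot (j := j) (by rw [h.len]; exact hj)
  rw [phi, phi, h0]
  generalize atom g j = p at ht ⊢
  obtain ⟨x, y, z⟩ := p
  simp only at ht ⊢
  refine div_le_div_of_nonneg_right ?_ (by positivity)
  obtain ⟨e, he⟩ : ∃ e : V, e = vv (6 * n) 0 0 := ⟨_, rfl⟩
  have v0 : e 0 = 6 * n := by rw [he]; simp [vv]
  have v1 : e 1 = 0 := by rw [he]; simp [vv]
  have v2 : e 2 = 0 := by rw [he]; simp [vv]
  have hp : Pos e := by rw [he]; exact vv_pos _ _ _
  rw [← he]
  clear he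
  have p1 : Pos (perm (Equiv.swap 0 1) e) := pos_perm hp _
  have p2 : Pos (perm (Equiv.swap 0 2) e) := pos_perm hp _
  have hx : (0 : ℝ) ≤ x / (6 * n) := by positivity
  have hy : (0 : ℝ) ≤ y / (6 * n) := by positivity
  have hz : (0 : ℝ) ≤ z / (6 * n) := by positivity
  have ev : vv x y z = fun i => ((x / (6 * n) : ℝ) * e i + (y / (6 * n) : ℝ) *
      perm (Equiv.swap 0 1) e i) + (z / (6 * n) : ℝ) * perm (Equiv.swap 0 2) e i := by
    funext i
    have s0 : ∀ i : Fin 3, perm (Equiv.swap 0 1) e i = e (Equiv.swap 0 1 i) := fun _ => rfl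
    have s1 : ∀ i : Fin 3, perm (Equiv.swap 0 2) e i = e (Equiv.swap 0 2 i) := fun _ => rfl
    fin_cases i
    · have a1 : (Equiv.swap (0 : Fin 3) 1) 0 = 1 := by decide
      have a2 : (Equiv.swap (0 : Fin 3) 2) 0 = 2 := by decide
      simp only [s0, s1, Fin.zero_eta, a1, a2, v0, v1, v2]
      rw [show vv x y z 0 = x from rfl]
      field_simp
      ring
    · have a1 : (Equiv.swap (0 : Fin 3) 1) 1 = 0 := by decide
      have a2 : (Equiv.swap (0 : Fin 3) 2) 1 = 1 := by decide
      simp only [s0, s1, Fin.mk_one, a1, a2, v0, v1]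
      rw [show vv x y z 1 = y from rfl]
      field_simp
      ring
    · have a1 : (Equiv.swap (0 : Fin 3) 1) 2 = 2 := by decide
      have a2 : (Equiv.swap (0 : Fin 3) 2) 2 = 0 := by decide
      simp only [s0, s1, Fin.reduceFinMk, a1, a2, v0, v2]
      rw [show vv x y z 2 = z from rfl]
      field_simp
      ring
  rw [ev]
  have q1 := hΦ.add (fun i => (x / (6 * n) : ℝ) * e i + (y / (6 * n) : ℝ) *
      perm (Equiv.swap 0 1) e i) (fun i => (z / (6 * n) : ℝ) * perm (Equiv.swap 0 2) e i)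
    (fun i => add_nonneg (mul_nonneg hx (hp i)) (mul_nonneg hy (p1 i)))
    (fun i => mul_nonneg hz (p2 i))
  have q2 := hΦ.add (fun i => (x / (6 * n) : ℝ) * e i) (fun i => (y / (6 * n) : ℝ) *
      perm (Equiv.swap 0 1) e i) (fun i => mul_nonneg hx (hp i)) (fun i => mul_nonneg hy (p1 i))
  rw [hΦ.smul _ _ hx hp, hΦ.smul _ _ hy p1, hs] at q2
  rw [hΦ.smul _ _ hz p2, hs] at q1
  have ht' : (x : ℝ) + y + z = 6 * n := by exact_mod_cast ht
  have : (x / (6 * n) : ℝ) * Φ e + y / (6 * n) * Φ e + z / (6 * n) * Φ e = Φ e := by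
    have : (x / (6 * n) : ℝ) + y / (6 * n) + z / (6 * n) = 1 := by
      rw [← add_div, ← add_div, ht', div_self (by positivity)]
    rw [← add_mul, ← add_mul, this, one_mul]
  linarith

/-- one stage -/
theorem stage_sound {n B D τ : ℕ} (hn : 0 < n) (hD : 0 < D) (hτ : 0 < τ) {g : L3}
    (hg : GridList n g) (hX : 2 * (τ * τ) * D ^ 2 < 2 ^ B) {l : L3} (hl : AllTot τ l)
    {w : List ℕ} (hw : w.sum = D) {K : ℕ} (hK : K = (n + 1) * (n + 2) / 2) :
    (stage (tens n B l) (2 ^ B) K (2 * τ ^ 2 * D) D w).sum = D ∧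
    ∀ Φ, Sub Φ → Sym Φ →
      sw w l (fun x y z => sw w l fun u v t => E6 Φ (vv x y z) (vv u v t)) ≤
        2 * τ ^ 2 * D / (6 * n) * sw (stage (tens n B l) (2 ^ B) K (2 * τ ^ 2 * D) D w) g
          (fun x y z => Φ (vv x y z)) := by
  have hn' : (0 : ℝ) < n := by exact_mod_cast hn
  set den := 2 * τ ^ 2 * D with hden
  have hden0 : 0 < den := by positivity
  have hK1 : ∃ K', K = K' + 1 := by
    refine ⟨K - 1, ?_⟩
    have : 0 < (n + 1) * (n + 2) / 2 := by
      have := pos_lt (n := n) (c := 0) (b := 0) (Nat.zero_le _) le_rfl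
      omega
    omega
  obtain ⟨K', hK'⟩ := hK1
  -- a common description of the new weights
  have main : ∀ Φ, Sub Φ → Sym Φ → ∃ c : ℕ → ℕ, (∑ j ∈ range K, c j ≤ den * D) ∧
      stage (tens n B l) (2 ^ B) K den D w =
        (D - ((List.range K').map fun j => c (j + 1) / den).sum) ::
          (List.range K').map (fun j => c (j + 1) / den) ∧
      sw w l (fun x y z => sw w l fun u v t => E6 Φ (vv x y z) (vv u v t)) ≤
        ∑ j ∈ range K, (c j : ℝ) * phi n g Φ j := by
    intro Φ hΦ hs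
    obtain ⟨c, e1, e2, e3⟩ := R_quad (B := B) hΦ hs (hg.isGrid Φ) hn l w hl
    rw [← hK] at e1 e2 e3
    have e2' : ∑ j ∈ range K, c j ≤ den * D := by
      refine e2.trans (le_of_eq ?_)
      rw [hw, hden]; ring
    refine ⟨c, e2', ?_, e3⟩
    have hc : ∀ j < K, c j < 2 ^ B := by
      intro j hj
      have := Finset.single_le_sum (f := c) (fun i _ => Nat.zero_le _) (Finset.mem_range.2 hj)
      refine lt_of_le_of_lt (this.trans e2) ?_
      rwa [hw]
    rw [stage, e1, digs_eq (by positivity) den K c hc, hK', List.range_succ_eq_map, List.map_cons,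
      List.map_map]
    show (D - lsum _) :: _ = _
    rw [lsum_eq]
    rfl
  have dm : ∀ c : ℕ, (c : ℝ) = den * (c / den : ℕ) + (c % den : ℕ) := by
    intro c
    exact_mod_cast (Nat.div_add_mod c den).symm
  have hle : ∀ c : ℕ → ℕ, (∑ j ∈ range K, c j ≤ den * D) →
      ((List.range K').map fun j => c (j + 1) / den).sum ≤ D := by
    intro c hc
    rw [sum_map_range]
    have h1 : den * ∑ j ∈ range K', c (j + 1) / den ≤ ∑ j ∈ range K, c j := by
      rw [hK', sum_range_succ', mul_sum]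
      refine (Finset.sum_le_sum fun j _ => Nat.mul_div_le (c (j + 1)) den).trans ?_
      omega
    exact Nat.le_of_mul_le_mul_left (h1.trans hc) hden0
  refine ⟨?_, ?_⟩
  · obtain ⟨c, h1, h2, -⟩ := main (fun _ => 0) sub_zerof (fun _ _ => rfl)
    rw [h2, List.sum_cons]
    have := hle c h1
    omega
  · intro Φ hΦ hs
    obtain ⟨c, h1, h2, h3⟩ := main Φ hΦ hs
    refine h3.trans ?_
    have h4 := hle c h1
    set w' : ℕ → ℕ := fun j => if j = 0 then D - ((List.range K').map fun j => c (j + 1) / den).sum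
      else c j / den with hw'
    have h5 : stage (tens n B l) (2 ^ B) K den D w = (List.range K).map w' := by
      rw [h2, hK', List.range_succ_eq_map, List.map_cons, List.map_map]
      congr 1
    rw [h5, sw_map _ K g w' (by rw [hg.len, hK])]
    have e6 : ∑ j ∈ range K, (w' j : ℝ) * Φ (vv (atom g j).1 (atom g j).2.1 (atom g j).2.2) =
        6 * n * ∑ j ∈ range K, (w' j : ℝ) * phi n g Φ j := by
      rw [mul_sum]
      refine sum_congr rfl fun j _ => ?_
      rw [phi]
      field_simp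
    rw [e6]
    have e7 : 2 * (τ : ℝ) ^ 2 * D / (6 * n) * (6 * n * ∑ j ∈ range K, (w' j : ℝ) * phi n g Φ j) =
        den * ∑ j ∈ range K, (w' j : ℝ) * phi n g Φ j := by
      rw [hden]; push_cast; field_simp
    rw [e7]
    -- compare
    rw [hK', sum_range_succ', sum_range_succ', mul_add]
    have w0 : (w' 0 : ℝ) = D - ∑ j ∈ range K', ((c (j + 1) / den : ℕ) : ℝ) := by
      have : w' 0 = D - ((List.range K').map fun j => c (j + 1) / den).sum := by simp [hw']
      rw [this, Nat.cast_sub h4, sum_map_range]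
      push_cast
      rfl
    have wj : ∀ j, w' (j + 1) = c (j + 1) / den := fun j => by simp [hw']
    have hphi : ∀ j ∈ range K', phi n g Φ (j + 1) ≤ phi n g Φ 0 := by
      intro j hj
      refine phi_le hn hg hΦ hs ?_
      have := Finset.mem_range.1 hj
      omega
    have t1 : ∀ j ∈ range K', (c (j + 1) : ℝ) * phi n g Φ (j + 1) ≤
        den * ((w' (j + 1) : ℝ) * phi n g Φ (j + 1)) +
          ((c (j + 1) : ℝ) - den * ((c (j + 1) / den : ℕ) : ℝ)) * phi n g Φ 0 := by
      intro j hj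
      have hr : (c (j + 1) : ℝ) - den * ((c (j + 1) / den : ℕ) : ℝ) = (c (j + 1) % den : ℕ) := by
        rw [dm (c (j + 1))]
        push_cast
        have := dm (c (j + 1))
        linarith
      rw [wj, hr]
      have hr0 : (0 : ℝ) ≤ (c (j + 1) % den : ℕ) := Nat.cast_nonneg _
      have := mul_le_mul_of_nonneg_left (hphi j hj) hr0
      have e := dm (c (j + 1))
      calc (c (j + 1) : ℝ) * phi n g Φ (j + 1)
          = (den * (c (j + 1) / den : ℕ) + (c (j + 1) % den : ℕ)) * phi n g Φ (j + 1) := by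
            rw [← e]
        _ ≤ _ := by nlinarith
    have t2 : ∑ j ∈ range K', (c (j + 1) : ℝ) * phi n g Φ (j + 1) ≤
        den * ∑ j ∈ range K', (w' (j + 1) : ℝ) * phi n g Φ (j + 1) +
          (∑ j ∈ range K', (c (j + 1) : ℝ) -
            den * ∑ j ∈ range K', ((c (j + 1) / den : ℕ) : ℝ)) * phi n g Φ 0 := by
      refine (Finset.sum_le_sum t1).trans (le_of_eq ?_)
      rw [Finset.sum_add_distrib, ← Finset.sum_mul, Finset.sum_sub_distrib, Finset.mul_sum,
        Finset.mul_sum]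
    have t3 : (∑ j ∈ range K', (c (j + 1) : ℝ)) + c 0 ≤ den * D := by
      have : (∑ j ∈ range K', c (j + 1)) + c 0 ≤ den * D := by
        rw [← sum_range_succ', ← hK']; exact h1
      exact_mod_cast this
    have p0 : 0 ≤ phi n g Φ 0 := div_nonneg (hΦ.nn _ (vv_pos _ _ _)) (by positivity)
    rw [w0]
    have t4 := mul_le_mul_of_nonneg_right t3 p0
    nlinarith [t2, t4]

end Vale.Agent.P154.DE
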