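import Vale.Agent.P154.Kron

/-! Generated tables (see gentab.py): the S3-averages of N_y^i C_y^j z^m as polynomials. -/

namespace Vale.Agent.P154

/-- exponents `(i,j)` of the monomials `N^i C^j` -/
def mons : List (Nat × Nat) :=
  [(0,0),(1,0),(2,0),(3,0),(4,0),(5,0),(0,1),(1,1),(2,1),(3,1),(0,2),(1,2),(2,2),(0,3)]

/-- twice the averages of `N_y^1 C_y^0 z^m`, `m = 0..4` -/
def tabA : List (List (List Int)) :=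
  [[[0,2],[2,2]],
   [[],[0,4,0,0,0,0,4],[],[],[],[],[0,4]],
   [[],[0,0,4],[0,4,4,0,0,0,4],[],[],[],[0,0,4,0,0,0,4]],
   [[],[],[0,0,12,0,0,0,0,12],[],[],[],[0,0,0,0,0,0,0,4],[0,0,12,0,0,0,4,4]],
   [[],[],[0,0,0,12],[0,0,12,12,0,0,0,12],[],[],[],[0,0,0,12,0,0,0,20,0,0,8],[],[],[0,0,0,0,0,0,0,8]]]

/-- twice the averages of `N_y^2 C_y^0 z^m`, `m = 0..6` -/
def tabB : List (List (List Int)) :=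
  [[[0,0,2],[0,8,8,0,0,0,8],[2,8,2],[],[],[],[0,8,0,0,0,0,8]],
   [[],[0,0,8,0,0,0,0,8],[0,8,16,0,0,0,16,8],[],[],[],[0,0,16,0,0,0,4,4],[0,8,8,0,0,0,4]],
   [[],[0,0,0,4],[0,0,20,12,0,0,0,32,0,0,8],[0,4,12,4,0,0,8,8],[],[],[0,0,0,8,0,0,0,8],[0,0,32,8,0,0,8,32],[],[],[0,0,8]],
   [[],[],[0,0,0,24,0,0,0,0,24],[0,0,24,32,0,0,0,48,24,0,16],[],[],[0,0,0,0,0,0,0,0,4],[0,0,0,48,0,0,0,28,28,0,16],[0,0,24,24,0,0,4,28,4],[],[0,0,0,16,0,0,0,16]],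
   [[],[],[0,0,0,0,12],[0,0,0,68,28,0,0,0,96,0,-8,32],[0,0,12,28,12,0,0,24,24,0,8],[],[],[0,0,0,0,24,0,0,0,40,0,0,16],[0,0,0,96,24,0,0,40,128,0,32,16],[],[0,0,0,-8,8,0,0,0,32,0,16],[0,0,0,32,0,0,0,16,16]],
   [[],[],[],[0,0,0,0,88,0,0,0,0,72,0,-16],[0,0,0,88,96,0,0,0,144,72,-16,48],[],[],[0,0,0,0,0,0,0,0,0,20],[0,0,0,0,144,0,0,0,124,108,0,112,0,16],[0,0,0,72,72,0,0,20,108,20,16,16],[0,0,0,0,-16,0,0,0,0,16,0,32],[0,0,0,-16,48,0,0,0,112,16,32,64],[],[0,0,0,0,0,0,0,0,16]],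
   [[],[],[],[0,0,0,0,0,44,0,0,0,0,0,0,-8],[0,0,0,0,260,92,0,0,0,320,0,-80,88,-32],[0,0,0,44,92,44,0,0,72,72,-8,16,-8],[],[],[0,0,0,0,0,72,0,0,0,168,0,0,96],[0,0,0,0,320,72,0,0,168,448,0,160,96,32],[0,0,0,0,0,-8,0,0,0,0,0,0,16],[0,0,0,0,-80,16,0,0,0,160,0,160,64,64],[0,0,0,-8,88,-8,0,0,96,96,16,64,16],[0,0,0,0,-32,0,0,0,0,32,0,64]]]

/-- twice the averages of `N_y^1 C_y^1 z^m`, `m = 0..5` -/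
def tabC : List (List (List Int)) :=
  [[[0,0,0,0,0,0,0,2],[0,0,24,0,0,0,8,8],[0,24,24,0,0,0,12],[],[],[],[0,8,12,0,0,0,12,8],[2,8,0,0,0,0,8,2]],
   [[],[0,0,0,6,0,0,0,10,0,0,4],[0,0,48,12,0,0,12,48],[0,6,12,0,0,0,12,6],[],[],[0,0,12,12,0,0,0,16],[0,10,48,6,0,0,16,16,0,0,4],[],[],[0,4,0,0,0,0,0,4]],
   [[],[0,0,0,0,0,0,0,0,4],[0,0,0,48,0,0,0,28,28,0,16],[0,0,48,32,0,0,6,72,6,0,16],[],[],[0,0,0,6,0,0,0,0,10,0,4],[0,0,28,72,0,0,0,72,28],[0,4,28,6,0,0,10,28,4,0,4],[],[0,0,16,16,0,0,4,0,4]],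
   [[],[],[0,0,0,0,18,0,0,0,30,0,0,12],[0,0,0,120,20,0,0,36,144,0,24,16],[0,0,18,20,-4,0,0,36,18,0,16,4],[],[0,0,0,0,0,0,0,0,0,0,0,4],[0,0,0,36,36,0,0,0,96,0,16,16],[0,0,30,144,18,0,0,96,96,0,24,12],[],[0,0,0,24,16,0,0,16,24],[0,0,12,16,4,0,4,16,12]],
   [[],[],[0,0,0,0,0,0,0,0,0,12],[0,0,0,0,144,0,0,0,84,84,0,48],[0,0,0,144,64,0,0,18,216,10,0,80,0,8],[],[],[0,0,0,0,18,0,0,0,0,42,0,32,0,8],[0,0,0,84,216,0,0,0,312,108,24,96],[0,0,12,84,10,0,0,42,108,12,24,32],[0,0,0,0,0,0,0,0,24,24,0,32],[0,0,0,48,80,0,0,32,96,32,32],[],[0,0,0,0,8,0,0,8]],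
   [[],[],[],[0,0,0,0,0,66,0,0,0,98,0,0,24,-8],[0,0,0,0,408,52,0,0,108,432,0,24,56],[0,0,0,66,52,-20,0,0,108,46,-12,56,20,8],[],[0,0,0,0,0,0,0,0,0,0,0,0,20],[0,0,0,0,108,108,0,0,0,384,0,104,104,32],[0,0,0,98,432,46,0,0,384,352,4,216,56,32],[0,0,0,0,0,-12,0,0,0,4,0,0,32,16],[0,0,0,0,24,56,0,0,104,216,0,192,48],[0,0,0,24,56,20,0,20,104,56,32,48],[0,0,0,-8,0,8,0,0,32,32,16]]]

/-- twice the averages of `N_y^0 C_y^2 z^m`, `m = 0..4` -/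
def tabD : List (List (List Int)) :=
  [[[0,0,0,0,0,0,0,0,0,0,2],[0,0,9,9,0,0,0,42],[0,9,126,9,0,0,18,18],[0,9,9,2,0,0,18,0,0,0,-2],[],[],[0,0,18,18,0,0,22,18,0,0,4],[0,42,18,0,0,0,18,42],[],[],[2,0,0,-2,0,0,4,0,0,0,4]],
   [[],[0,0,0,0,0,0,0,0,12,0,12],[0,0,18,90,0,0,0,102,18,0,12],[0,0,90,18,0,0,18,90],[],[],[0,0,0,18,0,0,0,21,21],[0,0,102,90,0,0,21,54,21,0,12],[0,12,18,0,0,0,21,21,0,0,12],[],[0,12,12,0,0,0,0,12,12]],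
   [[],[0,0,0,0,0,0,0,0,0,0,0,4],[0,0,0,9,27,0,0,0,102,0,30,12],[0,0,9,234,-3,0,0,126,126,0,36,12],[0,0,27,-3,4,0,0,54,0,0,30,-4],[],[0,0,0,0,0,0,0,0,12,0,0,12],[0,0,0,126,54,0,0,62,138,0,12,8],[0,0,102,126,0,0,12,138,102,0,12,12],[],[0,0,30,36,30,0,0,12,12],[0,4,12,12,-4,0,12,8,12,0,0,8]],
   [[],[],[0,0,0,0,0,0,0,0,0,36,0,36],[0,0,0,18,234,0,0,0,306,46,36,72,0,8],[0,0,0,234,-30,0,0,54,270,0,36,84],[],[0,0,0,0,0,0,0,0,0,0,0,0,0,4],[0,0,0,0,54,0,0,0,81,81,0,84],[0,0,0,306,270,0,0,81,414,81,36,72],[0,0,36,46,0,0,0,81,81,-4,44,36,0,4],[0,0,0,36,36,0,0,0,36,44,8],[0,0,36,72,84,0,0,84,72,36],[],[0,0,0,8,0,0,4,0,0,4]],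
   [[],[],[0,0,0,0,0,0,0,0,0,0,0,0,12],[0,0,0,0,9,99,0,0,0,306,0,108,18],[0,0,0,9,666,-51,0,0,378,354,18,144,78,24],[0,0,0,99,-51,12,0,0,162,-24,-18,132,-12,24],[],[0,0,0,0,0,0,0,0,0,36,0,0,60,24],[0,0,0,0,378,162,0,0,222,594,0,240,60,24],[0,0,0,306,354,-24,0,36,594,342,36,240,60],[0,0,0,0,18,-18,0,0,0,36,0,24,60],[0,0,0,108,144,132,0,0,240,240,24,72],[0,0,12,18,78,-12,0,60,60,60,60,0,24],[0,0,0,0,24,24,0,24,24]]]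

end Vale.Agent.P154
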