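import Vale.Agent.P154.V2Pack

namespace Vale.Agent.P154

def lin3 (X Y a b c : Int) : Int := Int.add a (Int.add (Int.mul b X) (Int.mul c Y))

/-- the fourteen monomials of a triangle -/
def monF (X Y : Int) (t : Tri)
    (f : Int → Int → Int → Int → Int → Int → Int → Int → Int → Int → Int → Int → Int → Int →
      Bool) : Bool :=
  fcZ (lin3 X Y t.a.S t.b.S t.c.S) fun S =>
  fcZ (lin3 X Y t.a.p t.b.p t.c.p) fun p =>
  fcZ (lin3 X Y t.a.r t.b.r t.c.r) fun r =>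
  fcZ (Int.mul 4 (Int.add (Int.add (Int.mul p p) (Int.mul p r)) (Int.mul r r))) fun N =>
  fcZ (Int.mul 4 (Int.mul (Int.mul (Int.add (Int.add p p) r) (Int.sub p r)) (Int.add p (Int.add r r)))) fun C =>
  fcZ (Int.mul N N) fun n2 =>
  fcZ (Int.mul n2 N) fun n3 =>
  fcZ (Int.mul n2 n2) fun n4 =>
  fcZ (Int.mul C C) fun c2 =>
  fcZ (Int.mul S S) fun s2 =>
  fcZ (Int.mul s2 S) fun s3 =>
  fcZ (Int.mul s2 s2) fun s4 =>
  fcZ (Int.mul s4 S) fun s5 =>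
  fcZ (Int.mul s4 s2) fun s6 =>
  fcZ (Int.mul s6 S) fun s7 =>
  fcZ (Int.mul s4 s4) fun s8 =>
  f (Int.mul s8 s2)
    (Int.mul N s8)
    (Int.mul n2 s6)
    (Int.mul n3 s4)
    (Int.mul n4 s2)
    (Int.mul n4 N)
    (Int.mul C s7)
    (Int.mul (Int.mul N C) s5)
    (Int.mul (Int.mul n2 C) s3)
    (Int.mul (Int.mul n3 C) S)
    (Int.mul c2 s4)
    (Int.mul (Int.mul N c2) s2)
    (Int.mul n2 c2)
    (Int.mul (Int.mul c2 C) S)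

/-- bound for the sum of the `l1`-norms of the monomials -/
def sumL (t : Tri) (f : Nat → Bool) : Bool :=
  fcN (Nat.add t.a.S.natAbs (Nat.add t.b.S.natAbs t.c.S.natAbs)) fun S =>
  fcN (Nat.add t.a.p.natAbs (Nat.add t.b.p.natAbs t.c.p.natAbs)) fun p =>
  fcN (Nat.add t.a.r.natAbs (Nat.add t.b.r.natAbs t.c.r.natAbs)) fun r =>
  fcN (Nat.mul 4 (Nat.add (Nat.add (Nat.mul p p) (Nat.mul p r)) (Nat.mul r r))) fun N =>
  fcN (Nat.mul 4 (Nat.mul (Nat.mul (Nat.add (Nat.add p p) r) (Nat.add p r))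
    (Nat.add p (Nat.add r r)))) fun C =>
  fcN (Nat.add (Nat.add (Nat.add (Nat.add (Nat.add (Nat.add (Nat.add (Nat.add (Nat.add (Nat.add (Nat.add (Nat.add (Nat.add (Nat.mul (Nat.mul (Nat.pow N 0) (Nat.pow C 0)) (Nat.pow S 10)) (Nat.mul (Nat.mul (Nat.pow N 1) (Nat.pow C 0)) (Nat.pow S 8))) (Nat.mul (Nat.mul (Nat.pow N 2) (Nat.pow C 0)) (Nat.pow S 6))) (Nat.mul (Nat.mul (Nat.pow N 3) (Nat.pow C 0)) (Nat.pow S 4))) (Nat.mul (Nat.mul (Nat.pow N 4) (Nat.pow C 0)) (Nat.pow S 2))) (Nat.mul (Nat.mul (Nat.pow N 5) (Nat.pow C 0)) (Nat.pow S 0))) (Nat.mul (Nat.mul (Nat.pow N 0) (Nat.pow C 1)) (Nat.pow S 7))) (Nat.mul (Nat.mul (Nat.pow N 1) (Nat.pow C 1)) (Nat.pow S 5))) (Nat.mul (Nat.mul (Nat.pow N 2) (Nat.pow C 1)) (Nat.pow S 3))) (Nat.mul (Nat.mul (Nat.pow N 3) (Nat.pow C 1)) (Nat.pow S 1))) (Nat.mul (Nat.mul (Nat.pow N 0) (Nat.pow C 2)) (Nat.pow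 S 4))) (Nat.mul (Nat.mul (Nat.pow N 1) (Nat.pow C 2)) (Nat.pow S 2))) (Nat.mul (Nat.mul (Nat.pow N 2) (Nat.pow C 2)) (Nat.pow S 0))) (Nat.mul (Nat.mul (Nat.pow N 0) (Nat.pow C 3)) (Nat.pow S 1))) f

/-- the used slots -/
def slotL : List Nat := [0, 1, 2, 3, 4, 5, 6, 7, 8, 9, 10, 11, 12, 13, 14, 15, 16, 17, 18, 19, 20, 22, 23, 24, 25, 26, 27, 28, 29, 30, 33, 34, 35, 36, 37, 38, 39, 40, 44, 45, 46, 47, 48, 49, 50, 55, 56, 57, 58, 59, 60, 66, 67, 68, 69, 70, 77, 78, 79, 80, 88, 89, 90, 99, 100, 110]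

def slotsF (K B MOD h : Nat) (v0 v1 v2 v3 v4 v5 v6 v7 v8 v9 v10 v11 v12 v13
    b0 b1 b2 b3 b4 b5 b6 b7 b8 b9 b10 b11 b12 b13 c : Nat) (js : List Nat) : Bool :=
  @List.rec Nat (fun _ => Bool) true
    (fun j _ ih => band (fcN (Nat.mul K j) fun s =>
      fcN (Nat.mod (acc14 B s v0 v1 v2 v3 v4 v5 v6 v7 v8 v9 v10 v11 v12 v13
        b0 b1 b2 b3 b4 b5 b6 b7 b8 b9 b10 b11 b12 b13 c) MOD) fun r =>
      Nat.beq (Nat.land r h) h) ih) js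

/-- the two-level check, with the packed matrix `MP` of entries at most `Bd` -/
def fastTwo (K Bd : Nat) (MP : Int) (U V : Tri) : Bool :=
  band (Nat.ble 1 K) (
  band (Nat.ble (Nat.succ Bd) (Nat.pow 2 127)) (
  sumL U fun LU =>
  sumL V fun LV =>
  band (Nat.ble (Nat.succ (Nat.mul (Nat.succ Bd) (Nat.mul LU LV))) (Nat.pow 2 (Nat.sub K 1))) (
  band (Nat.ble (Nat.succ LV) (Nat.pow 2 (Nat.sub K 1))) (
  fcN (halfMask 121 K) fun h =>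
  fcN (Nat.pow 2 K) fun B =>
  fcN (Nat.pow 2 (Nat.mul 121 K)) fun MOD =>
  fcN (Nat.pow 2 (Nat.mul 11 K)) fun Y =>
  fcN (Nat.pow 2 128) fun B2 =>
  fcP (Int.add MP (Int.ofNat (halfMask 196 128))) fun MN =>
  monF (Int.ofNat B) (Int.ofNat Y) U fun m0 m1 m2 m3 m4 m5 m6 m7 m8 m9 m10 m11 m12 m13 =>
  fcN (toMod MOD m0) fun u0 =>
  fcN (toMod MOD m1) fun u1 =>
  fcN (toMod MOD m2) fun u2 =>
  fcN (toMod MOD m3) fun u3 =>
  fcN (toMod MOD m4) fun u4 =>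
  fcN (toMod MOD m5) fun u5 =>
  fcN (toMod MOD m6) fun u6 =>
  fcN (toMod MOD m7) fun u7 =>
  fcN (toMod MOD m8) fun u8 =>
  fcN (toMod MOD m9) fun u9 =>
  fcN (toMod MOD m10) fun u10 =>
  fcN (toMod MOD m11) fun u11 =>
  fcN (toMod MOD m12) fun u12 =>
  fcN (toMod MOD m13) fun u13 =>
  fcN (Nat.sub MOD (Nat.mod (Nat.mul (Nat.pow 2 127) (Nat.add (Nat.add (Nat.add (Nat.add (Nat.add (Nat.add (Nat.add (Nat.add (Nat.add (Nat.add (Nat.add (Nat.add (Nat.add u0 u1) u2) u3) u4) u5) u6) u7) u8) u9) u10) u11) u12) u13)) MOD)) fun c1 =>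
  fcN (Nat.mod (row14 B2 MN 0 u0 u1 u2 u3 u4 u5 u6 u7 u8 u9 u10 u11 u12 u13 c1) MOD) fun b0 =>
  fcN (Nat.mod (row14 B2 MN 1792 u0 u1 u2 u3 u4 u5 u6 u7 u8 u9 u10 u11 u12 u13 c1) MOD) fun b1 =>
  fcN (Nat.mod (row14 B2 MN 3584 u0 u1 u2 u3 u4 u5 u6 u7 u8 u9 u10 u11 u12 u13 c1) MOD) fun b2 =>
  fcN (Nat.mod (row14 B2 MN 5376 u0 u1 u2 u3 u4 u5 u6 u7 u8 u9 u10 u11 u12 u13 c1) MOD) fun b3 =>
  fcN (Nat.mod (row14 B2 MN 7168 u0 u1 u2 u3 u4 u5 u6 u7 u8 u9 u10 u11 u12 u13 c1) MOD) fun b4 =>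
  fcN (Nat.mod (row14 B2 MN 8960 u0 u1 u2 u3 u4 u5 u6 u7 u8 u9 u10 u11 u12 u13 c1) MOD) fun b5 =>
  fcN (Nat.mod (row14 B2 MN 10752 u0 u1 u2 u3 u4 u5 u6 u7 u8 u9 u10 u11 u12 u13 c1) MOD) fun b6 =>
  fcN (Nat.mod (row14 B2 MN 12544 u0 u1 u2 u3 u4 u5 u6 u7 u8 u9 u10 u11 u12 u13 c1) MOD) fun b7 =>
  fcN (Nat.mod (row14 B2 MN 14336 u0 u1 u2 u3 u4 u5 u6 u7 u8 u9 u10 u11 u12 u13 c1) MOD) fun b8 =>
  fcN (Nat.mod (row14 B2 MN 16128 u0 u1 u2 u3 u4 u5 u6 u7 u8 u9 u10 u11 u12 u13 c1) MOD) fun b9 =>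
  fcN (Nat.mod (row14 B2 MN 17920 u0 u1 u2 u3 u4 u5 u6 u7 u8 u9 u10 u11 u12 u13 c1) MOD) fun b10 =>
  fcN (Nat.mod (row14 B2 MN 19712 u0 u1 u2 u3 u4 u5 u6 u7 u8 u9 u10 u11 u12 u13 c1) MOD) fun b11 =>
  fcN (Nat.mod (row14 B2 MN 21504 u0 u1 u2 u3 u4 u5 u6 u7 u8 u9 u10 u11 u12 u13 c1) MOD) fun b12 =>
  fcN (Nat.mod (row14 B2 MN 23296 u0 u1 u2 u3 u4 u5 u6 u7 u8 u9 u10 u11 u12 u13 c1) MOD) fun b13 =>
  monF (Int.ofNat B) (Int.ofNat Y) V fun m0 m1 m2 m3 m4 m5 m6 m7 m8 m9 m10 m11 m12 m13 =>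
  fcP (Int.add m0 (Int.ofNat h)) fun v0 =>
  fcP (Int.add m1 (Int.ofNat h)) fun v1 =>
  fcP (Int.add m2 (Int.ofNat h)) fun v2 =>
  fcP (Int.add m3 (Int.ofNat h)) fun v3 =>
  fcP (Int.add m4 (Int.ofNat h)) fun v4 =>
  fcP (Int.add m5 (Int.ofNat h)) fun v5 =>
  fcP (Int.add m6 (Int.ofNat h)) fun v6 =>
  fcP (Int.add m7 (Int.ofNat h)) fun v7 =>
  fcP (Int.add m8 (Int.ofNat h)) fun v8 =>
  fcP (Int.add m9 (Int.ofNat h)) fun v9 =>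
  fcP (Int.add m10 (Int.ofNat h)) fun v10 =>
  fcP (Int.add m11 (Int.ofNat h)) fun v11 =>
  fcP (Int.add m12 (Int.ofNat h)) fun v12 =>
  fcP (Int.add m13 (Int.ofNat h)) fun v13 =>
  fcN (Nat.add h (Nat.sub MOD (Nat.mod (Nat.mul (Nat.pow 2 (Nat.sub K 1)) (Nat.add (Nat.add (Nat.add (Nat.add (Nat.add (Nat.add (Nat.add (Nat.add (Nat.add (Nat.add (Nat.add (Nat.add (Nat.add b0 b1) b2) b3) b4) b5) b6) b7) b8) b9) b10) b11) b12) b13)) MOD))) fun c2 =>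
  slotsF K B MOD h v0 v1 v2 v3 v4 v5 v6 v7 v8 v9 v10 v11 v12 v13
    b0 b1 b2 b3 b4 b5 b6 b7 b8 b9 b10 b11 b12 b13 c2 slotL))))

/-- `mul1z` -/
def mul1zF (l : List Int) : List Int := addF l (0 :: l)

def absM (M : List (List Int)) : Nat :=
  @List.rec (List Int) (fun _ => Nat) 0 (fun r _ ih => Nat.add (absF r) ih) M

/-- the positivity of the remainder of a leaf -/
def leafTwo (P : Par2) (W : Int) (K : Nat) (L : Leaf2) (U V : Tri) : Bool :=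
  fcLZ (smulF P.b1 (mul1zF L.l2)) fun l1 =>
  fcLZ (smulF P.b2 L.l2) fun l2 =>
  fcLZ (mul1zF L.l5) fun l5 =>
  fcLZ (addF (smulF P.b3 L.l3) (smulF P.b5 (mul1zF l5))) fun l3 =>
  fcLZ (smulF P.c5 l5) fun l4 =>
  fcLZ (smulF P.d5 L.l5) fun l6 =>
  fcLZ (addF (smulF (m2 P) L.e2) (addF (smulF P.b3 L.e3) (smulF (m5 P) L.e5))) fun l7 =>
  fcZ (Int.sub (packM (base2 P W)) (Int.add (dotP l1 tpN) (Int.add (dotP l2 tpC1)
    (Int.add (dotP l3 tpB) (Int.add (dotP l4 tpC) (Int.add (dotP l6 tpD) (dotP l7 tpZ))))))) fun MP =>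
  fcN (Nat.add (absM (base2 P W)) (Nat.mul 1024 (Nat.add (absF l1) (Nat.add (absF l2)
    (Nat.add (absF l3) (Nat.add (absF l4) (Nat.add (absF l6) (absF l7)))))))) fun Bd =>
  fastTwo K Bd MP U V

/-! ### the leaf check -/

structure Cfg2 where
  P : Par2
  W : Int
  Zd : Nat
  K : Nat
  Kp : Nat

def lenOK (L : Leaf2) : Bool :=
  band (Nat.ble L.l2.length 8) (band (Nat.ble L.l3.length 7) (band (Nat.ble L.l5.length 5)
    (band (Nat.ble L.e2.length 6) (band (Nat.ble L.e3.length 6) (Nat.ble L.e5.length 6)))))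

/-- evaluate the coordinates of a point first -/
def fcPt (a : Pt) (f : Pt → Bool) : Bool :=
  fcZ a.S fun S => fcZ a.p fun p => fcZ a.r fun r => f ⟨S, p, r⟩

def fcTri (U : Tri) (f : Tri → Bool) : Bool :=
  fcPt U.a fun a => fcPt U.b fun b => fcPt U.c fun c => f ⟨a, b, c⟩

def leafOK2 (c : Cfg2) (L : Leaf2) (U V : Tri) : Bool :=
  fcTri U fun U => fcTri V fun V =>
  band (lenOK L) (band (allSeg c.Zd U V L.segs) (band (segsOK c.P L c.W c.Zd c.Kp)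
    (leafTwo c.P c.W c.K L U V)))

/-- certificate trees -/
inductive Cert2 where
  | leaf (L : Leaf2)
  | su (e : Nat) (l r : Cert2)
  | sv (e : Nat) (l r : Cert2)

def Cert2.check (c : Cfg2) : Cert2 → Tri → Tri → Bool
  | .leaf L, U, V => leafOK2 c L U V
  | .su e l r, U, V => band (fcTri (U.left e) fun U => l.check c U V)
      (fcTri (U.right e) fun U => r.check c U V)
  | .sv e l r, U, V => band (fcTri (V.left e) fun V => l.check c U V)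
      (fcTri (V.right e) fun V => r.check c U V)

end Vale.Agent.P154
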