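import Vale.Agent.P154.Poly

/-! Generated tables (see gentab2.py): further S3-averages `N_y^i C_y^j z^m`. -/

namespace Vale.Agent.P154

/-- twice the averages of `N_y^1 C_y^0 z^m`, `m = 0..8` -/
def tabN : List (List (List Int)) :=
  [[[0,2],[2,2]],
   [[],[0,4,0,0,0,0,4],[],[],[],[],[0,4]],
   [[],[0,0,4],[0,4,4,0,0,0,4],[],[],[],[0,0,4,0,0,0,4]],
   [[],[],[0,0,12,0,0,0,0,12],[],[],[],[0,0,0,0,0,0,0,4],[0,0,12,0,0,0,4,4]],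
   [[],[],[0,0,0,12],[0,0,12,12,0,0,0,12],[],[],[],[0,0,0,12,0,0,0,20,0,0,8],[],[],[0,0,0,0,0,0,0,8]],
   [[],[],[],[0,0,0,44,0,0,0,0,36,0,-8],[],[],[],[0,0,0,0,0,0,0,0,20],[0,0,0,36,0,0,0,20,20,0,8],[],[0,0,0,-8,0,0,0,0,8,0,16]],
   [[],[],[],[0,0,0,0,44,0,0,0,0,0,0,-8],[0,0,0,44,44,0,0,0,36,0,-8,-8],[],[],[],[0,0,0,0,36,0,0,0,84,0,0,48],[],[0,0,0,0,-8,0,0,0,0,0,0,16],[0,0,0,-8,-8,0,0,0,48,0,16,16]],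
   [[],[],[],[],[0,0,0,0,172,0,0,0,0,124,0,-64,0,-16],[],[],[],[0,0,0,0,0,0,0,0,0,84],[0,0,0,0,124,0,0,0,84,84,0,32],[],[0,0,0,0,-64,0,0,0,0,32,0,128,0,32],[],[0,0,0,0,-16,0,0,0,0,0,0,32]],
   [[],[],[],[],[0,0,0,0,0,172,0,0,0,0,0,0,-64],[0,0,0,0,172,172,0,0,0,124,0,-64,-64,-16],[],[],[],[0,0,0,0,0,124,0,0,0,372,0,0,200,-48],[],[0,0,0,0,0,-64,0,0,0,0,0,0,128],[0,0,0,0,-64,-64,0,0,0,200,0,128,128,32],[0,0,0,0,0,-16,0,0,0,-48,0,0,32,64]]]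

/-- twice the averages of `N_y^0 C_y^1 z^m`, `m = 0..7` -/
def tabC1 : List (List (List Int)) :=
  [[[0,0,0,0,0,0,2],[0,12],[],[],[],[],[2,0,0,0,0,0,2]],
   [[],[0,0,6,0,0,0,6],[0,6,0,0,0,0,6],[],[],[],[0,6,6]],
   [[],[0,0,0,0,0,0,0,4],[0,0,24,0,0,0,6,6],[],[],[],[0,0,6,0,0,0,0,6],[0,4,6,0,0,0,6,4]],
   [[],[],[0,0,0,18,0,0,0,18],[0,0,18,-4,0,0,0,18,0,0,4],[],[],[0,0,0,0,0,0,0,0,0,0,4],[0,0,18,18,0,0,0,24],[],[],[0,0,0,4,0,0,4]],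
   [[],[],[0,0,0,0,0,0,0,0,12],[0,0,0,72,0,0,0,18,18],[],[],[],[0,0,0,18,0,0,0,0,30,0,12],[0,0,12,18,0,0,0,30,12,0,12],[],[0,0,0,0,0,0,0,12,12]],
   [[],[],[],[0,0,0,0,66,0,0,0,54,0,0,-12],[0,0,0,66,-20,0,0,0,54,0,-12,20],[],[],[0,0,0,0,0,0,0,0,0,0,0,20],[0,0,0,54,54,0,0,0,120,0,12,12],[],[0,0,0,0,-12,0,0,0,12,0,0,24],[0,0,0,-12,20,0,0,20,12,0,24]],
   [[],[],[],[0,0,0,0,0,0,0,0,0,44,0,0,0,-8],[0,0,0,0,264,0,0,0,54,54,0,-48],[],[],[],[0,0,0,0,54,0,0,0,0,126,0,72],[0,0,0,44,54,0,0,0,126,28,-8,72,0,8],[0,0,0,0,0,0,0,0,0,-8,0,0,0,16],[0,0,0,0,-48,0,0,0,72,72,0,96],[],[0,0,0,-8,0,0,0,0,0,8,16]],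
   [[],[],[],[],[0,0,0,0,0,258,0,0,0,186,0,0,-96,-24],[0,0,0,0,258,-84,0,0,0,186,0,-96,84,-24],[],[],[0,0,0,0,0,0,0,0,0,0,0,0,84],[0,0,0,0,186,186,0,0,0,504,0,48,48],[],[0,0,0,0,0,-96,0,0,0,48,0,0,192,48],[0,0,0,0,-96,84,0,0,84,48,0,192,0,48],[0,0,0,0,-24,-24,0,0,0,0,0,48,48]]]

/-- twice the averages of `N_y^0 C_y^0 z^m`, `m = 0..5` -/
def tabZ : List (List (List Int)) :=
  [[[2]],
   [],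
   [[],[0,4]],
   [[],[],[],[],[],[],[0,0,0,0,0,0,4]],
   [[],[],[0,0,12]],
   [[],[],[],[],[],[],[],[0,0,0,0,0,0,0,20]]]

theorem idN : allId 1 0 0 tabN = true := by decide +kernel
theorem idC1 : allId 0 1 0 tabC1 = true := by decide +kernel
theorem idZ : allId 0 0 0 tabZ = true := by decide +kernel

end Vale.Agent.P154
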