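import Vale.Agent.P154.DETab
import Vale.Agent.P154.V5L

/-!
Blocks of 11 numbers: the values of the functions in continuation passing style.
-/

namespace Vale.Agent.P154.DE

theorem sortkL_eq : sortkL = sortk := rfl

theorem rowL_eq : rowL = row := rfl

def A3.toL : A3 → L3
  | .nil => .nil
  | .cons x0 y0 z0 x1 y1 z1 x2 y2 z2 x3 y3 z3 x4 y4 z4 x5 y5 z5 x6 y6 z6 x7 y7 z7 x8 y8 z8 x9
    y9 z9 x10 y10 z10 t => .cons x0 y0 z0 (.cons x1 y1 z1 (.cons x2 y2 z2 (.cons x3 y3 z3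
    (.cons x4 y4 z4 (.cons x5 y5 z5 (.cons x6 y6 z6 (.cons x7 y7 z7 (.cons x8 y8 z8 (.cons x9
    y9 z9 (.cons x10 y10 z10 t.toL))))))))))

def Tb.toL : Tb → List (List Nat)
  | .nil => []
  | .cons r0 r1 r2 r3 r4 r5 r6 r7 r8 r9 r10 t => r0.toL :: r1.toL :: r2.toL :: r3.toL :: r4.toL
    :: r5.toL :: r6.toL :: r7.toL :: r8.toL :: r9.toL :: r10.toL :: t.toL

theorem ev_eq (n : Nat) (f : Nat → Bool) : ev n f = f n := rfl

theorem dotB_eq : ∀ V T : Bk, dotB V T = dot T.toL V.toL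
  | .nil, .nil => rfl
  | .nil, .cons t0 t1 t2 t3 t4 t5 t6 t7 t8 t9 t10 t => rfl
  | .cons t0 t1 t2 t3 t4 t5 t6 t7 t8 t9 t10 t, .nil => rfl
  | .cons v0 v1 v2 v3 v4 v5 v6 v7 v8 v9 v10 v, .cons t0 t1 t2 t3 t4 t5 t6 t7 t8 t9 t10 t => by
    have e : dotB (.cons v0 v1 v2 v3 v4 v5 v6 v7 v8 v9 v10 v) (.cons t0 t1 t2 t3 t4 t5 t6 t7 t8
      t9 t10 t) = (v0 * t0 + (v1 * t1 + (v2 * t2 + (v3 * t3 + (v4 * t4 + (v5 * t5 + (v6 * t6 +
      (v7 * t7 + (v8 * t8 + (v9 * t9 + (v10 * t10 + dotB v t))))))))))) := rfl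
    rw [e, dotB_eq v t]
    rfl

/-- the value of `unB` -/
noncomputable def unD (X XB den : Nat) : Nat → Nat → Bk
  | 0, _ => .nil
  | k + 1, N => .cons ((N % XB) % X / den) (((N % XB) / X) % X / den) ((((N % XB) / X) / X) % X
    / den) (((((N % XB) / X) / X) / X) % X / den) ((((((N % XB) / X) / X) / X) / X) % X / den)
    (((((((N % XB) / X) / X) / X) / X) / X) % X / den) ((((((((N % XB) / X) / X) / X) / X) / X)
    / X) % X / den) (((((((((N % XB) / X) / X) / X) / X) / X) / X) / X) % X / den) ((((((((((N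
    % XB) / X) / X) / X) / X) / X) / X) / X) / X) % X / den) (((((((((((N % XB) / X) / X) / X)
    / X) / X) / X) / X) / X) / X) % X / den) ((((((((((((N % XB) / X) / X) / X) / X) / X) / X)
    / X) / X) / X) / X) % X / den) (unD X XB den k (N / XB))

theorem unB_eq (X XB den : Nat) : ∀ (k N : Nat) (f : Bk → Bool),
    unB X XB den k N f = f (unD X XB den k N)
  | 0, N, f => rfl
  | k + 1, N, f => by
    have e : unB X XB den (k + 1) N f = ev (Nat.mod N XB) fun L => ev (Nat.div N XB) fun M =>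
      unB X XB den k M fun t =>
      ev (Nat.div (Nat.mod L X) den) fun d0 =>
      ev (Nat.div L X) fun L1 =>
      ev (Nat.div (Nat.mod L1 X) den) fun d1 =>
      ev (Nat.div L1 X) fun L2 =>
      ev (Nat.div (Nat.mod L2 X) den) fun d2 =>
      ev (Nat.div L2 X) fun L3 =>
      ev (Nat.div (Nat.mod L3 X) den) fun d3 =>
      ev (Nat.div L3 X) fun L4 =>
      ev (Nat.div (Nat.mod L4 X) den) fun d4 =>
      ev (Nat.div L4 X) fun L5 =>
      ev (Nat.div (Nat.mod L5 X) den) fun d5 =>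
      ev (Nat.div L5 X) fun L6 =>
      ev (Nat.div (Nat.mod L6 X) den) fun d6 =>
      ev (Nat.div L6 X) fun L7 =>
      ev (Nat.div (Nat.mod L7 X) den) fun d7 =>
      ev (Nat.div L7 X) fun L8 =>
      ev (Nat.div (Nat.mod L8 X) den) fun d8 =>
      ev (Nat.div L8 X) fun L9 =>
      ev (Nat.div (Nat.mod L9 X) den) fun d9 =>
      ev (Nat.div L9 X) fun L10 =>
      ev (Nat.div (Nat.mod L10 X) den) fun d10 =>
      f (Bk.cons d0 d1 d2 d3 d4 d5 d6 d7 d8 d9 d10 t) := rfl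
    rw [e]
    simp only [ev_eq, unB_eq X XB den k]
    rfl

theorem digs_add (X den : Nat) : ∀ (a b N : Nat),
    digs X den (a + b) N = digs X den a (N % X ^ a) ++ digs X den b (N / X ^ a)
  | 0, b, N => by simp [digs]
  | a + 1, b, N => by
    have e1 : digs X den (a + 1 + b) N = (N % X / den) :: digs X den (a + b) (N / X) := by
      rw [show a + 1 + b = (a + b) + 1 by omega]; rfl
    have e2 : digs X den (a + 1) (N % X ^ (a + 1)) =
        (N % X ^ (a + 1) % X / den) :: digs X den a (N % X ^ (a + 1) / X) := rfl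
    rw [e1, e2, digs_add X den a b (N / X), Nat.mod_mod_of_dvd N (dvd_pow_self X (Nat.succ_ne_zero a)),
      Nat.div_div_eq_div_mul, Nat.pow_succ', Nat.mod_mul_right_div_self]
    rfl

theorem unD_eq (X den : Nat) : ∀ k N : Nat,
    (unD X (X ^ 11) den k N).toL = digs X den (11 * k) N
  | 0, N => rfl
  | k + 1, N => by
    rw [show 11 * (k + 1) = 11 + 11 * k by ring, digs_add, ← unD_eq X den k]
    rfl

theorem sumB_eq : ∀ l : Bk, sumB l = lsum l.toL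
  | .nil => rfl
  | .cons a0 a1 a2 a3 a4 a5 a6 a7 a8 a9 a10 t => by
    have e : sumB (.cons a0 a1 a2 a3 a4 a5 a6 a7 a8 a9 a10 t) = (a0 + (a1 + (a2 + (a3 + (a4 +
      (a5 + (a6 + (a7 + (a8 + (a9 + (a10 + sumB t))))))))))) := rfl
    rw [e, sumB_eq t]
    rfl

noncomputable def fixD (D : Nat) : Bk → Bk
  | .nil => .nil
  | .cons _ a1 a2 a3 a4 a5 a6 a7 a8 a9 a10 t => .cons (D - (a1 + (a2 + (a3 + (a4 + (a5 + (a6 +
    (a7 + (a8 + (a9 + (a10 + sumB t))))))))))) a1 a2 a3 a4 a5 a6 a7 a8 a9 a10 t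

theorem fixB_eq (D : Nat) (l : Bk) (f : Bk → Bool) : fixB D l f = f (fixD D l) := by
  cases l with
  | nil => rfl
  | cons a0 a1 a2 a3 a4 a5 a6 a7 a8 a9 a10 t =>
    have e : fixB D (.cons a0 a1 a2 a3 a4 a5 a6 a7 a8 a9 a10 t) f = ev (Nat.sub D (Nat.add a1
      (Nat.add a2 (Nat.add a3 (Nat.add a4 (Nat.add a5 (Nat.add a6 (Nat.add a7 (Nat.add a8
      (Nat.add a9 (Nat.add a10 (sumB t)))))))))))) fun a => f (Bk.cons a a1 a2 a3 a4 a5 a6 a7
      a8 a9 a10 t) := rfl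
    rw [e, ev_eq]
    rfl

theorem fixD_eq (D : Nat) (l : Bk) : (fixD D l).toL = fix D l.toL := by
  cases l with
  | nil => rfl
  | cons a0 a1 a2 a3 a4 a5 a6 a7 a8 a9 a10 t =>
    show (D - (a1 + (a2 + (a3 + (a4 + (a5 + (a6 + (a7 + (a8 + (a9 + (a10 + sumB t))))))))))) ::
      _ = _
    rw [sumB_eq t]
    rfl

/-- the products of a state atom and the message atoms -/
noncomputable def rowsM (n B x y z : Nat) (l : L3) : List Nat :=
  L3.rec (motive := fun _ => List Nat) []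
    (fun u v w _ ih => List.cons (srow n B x y z u v w) ih) l

noncomputable def rowD (n B x y z : Nat) : A3 → Bk
  | .nil => .nil
  | .cons x0 y0 z0 x1 y1 z1 x2 y2 z2 x3 y3 z3 x4 y4 z4 x5 y5 z5 x6 y6 z6 x7 y7 z7 x8 y8 z8 x9
    y9 z9 x10 y10 z10 t => .cons (srow n B x y z x0 y0 z0) (srow n B x y z x1 y1 z1) (srow n B
    x y z x2 y2 z2) (srow n B x y z x3 y3 z3) (srow n B x y z x4 y4 z4) (srow n B x y z x5 y5
    z5) (srow n B x y z x6 y6 z6) (srow n B x y z x7 y7 z7) (srow n B x y z x8 y8 z8) (srow n B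
    x y z x9 y9 z9) (srow n B x y z x10 y10 z10) (rowD n B x y z t)

theorem rowB_eq (n B x y z : Nat) : ∀ (l : A3) (f : Bk → Bool),
    rowB n B x y z l f = f (rowD n B x y z l)
  | .nil, f => rfl
  | .cons x0 y0 z0 x1 y1 z1 x2 y2 z2 x3 y3 z3 x4 y4 z4 x5 y5 z5 x6 y6 z6 x7 y7 z7 x8 y8 z8 x9
    y9 z9 x10 y10 z10 t, f => by
    have e : rowB n B x y z (.cons x0 y0 z0 x1 y1 z1 x2 y2 z2 x3 y3 z3 x4 y4 z4 x5 y5 z5 x6 y6
      z6 x7 y7 z7 x8 y8 z8 x9 y9 z9 x10 y10 z10 t) f = rowB n B x y z t fun s =>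
      ev (srow n B x y z x0 y0 z0) fun r0 =>
      ev (srow n B x y z x1 y1 z1) fun r1 =>
      ev (srow n B x y z x2 y2 z2) fun r2 =>
      ev (srow n B x y z x3 y3 z3) fun r3 =>
      ev (srow n B x y z x4 y4 z4) fun r4 =>
      ev (srow n B x y z x5 y5 z5) fun r5 =>
      ev (srow n B x y z x6 y6 z6) fun r6 =>
      ev (srow n B x y z x7 y7 z7) fun r7 =>
      ev (srow n B x y z x8 y8 z8) fun r8 =>
      ev (srow n B x y z x9 y9 z9) fun r9 =>
      ev (srow n B x y z x10 y10 z10) fun r10 =>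
      f (Bk.cons r0 r1 r2 r3 r4 r5 r6 r7 r8 r9 r10 s) := rfl
    rw [e]
    simp only [ev_eq, rowB_eq n B x y z t]
    rfl

theorem rowD_eq (n B x y z : Nat) : ∀ l : A3, (rowD n B x y z l).toL = rowsM n B x y z l.toL
  | .nil => rfl
  | .cons x0 y0 z0 x1 y1 z1 x2 y2 z2 x3 y3 z3 x4 y4 z4 x5 y5 z5 x6 y6 z6 x7 y7 z7 x8 y8 z8 x9
    y9 z9 x10 y10 z10 t => by
    have e : (rowD n B x y z (.cons x0 y0 z0 x1 y1 z1 x2 y2 z2 x3 y3 z3 x4 y4 z4 x5 y5 z5 x6 y6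
      z6 x7 y7 z7 x8 y8 z8 x9 y9 z9 x10 y10 z10 t)).toL = srow n B x y z x0 y0 z0 :: srow n B x
      y z x1 y1 z1 :: srow n B x y z x2 y2 z2 :: srow n B x y z x3 y3 z3 :: srow n B x y z x4
      y4 z4 :: srow n B x y z x5 y5 z5 :: srow n B x y z x6 y6 z6 :: srow n B x y z x7 y7 z7 ::
      srow n B x y z x8 y8 z8 :: srow n B x y z x9 y9 z9 :: srow n B x y z x10 y10 z10 :: (rowD
      n B x y z t).toL := rfl
    rw [e, rowD_eq n B x y z t]
    rfl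

/-- the table -/
noncomputable def tabL (n B : Nat) (l : L3) (g : L3) : List (List Nat) :=
  L3.rec (motive := fun _ => List (List Nat)) []
    (fun x y z _ ih => List.cons (rowsM n B x y z l) ih) g

noncomputable def tabD (n B : Nat) (l : A3) : A3 → Tb
  | .nil => .nil
  | .cons x0 y0 z0 x1 y1 z1 x2 y2 z2 x3 y3 z3 x4 y4 z4 x5 y5 z5 x6 y6 z6 x7 y7 z7 x8 y8 z8 x9
    y9 z9 x10 y10 z10 t => .cons (rowD n B x0 y0 z0 l) (rowD n B x1 y1 z1 l) (rowD n B x2 y2 z2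
    l) (rowD n B x3 y3 z3 l) (rowD n B x4 y4 z4 l) (rowD n B x5 y5 z5 l) (rowD n B x6 y6 z6 l)
    (rowD n B x7 y7 z7 l) (rowD n B x8 y8 z8 l) (rowD n B x9 y9 z9 l) (rowD n B x10 y10 z10 l)
    (tabD n B l t)

theorem tabB_eq (n B : Nat) (l : A3) : ∀ (g : A3) (f : Tb → Bool),
    tabB n B l g f = f (tabD n B l g)
  | .nil, f => rfl
  | .cons x0 y0 z0 x1 y1 z1 x2 y2 z2 x3 y3 z3 x4 y4 z4 x5 y5 z5 x6 y6 z6 x7 y7 z7 x8 y8 z8 x9
    y9 z9 x10 y10 z10 t, f => by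
    have e : tabB n B l (.cons x0 y0 z0 x1 y1 z1 x2 y2 z2 x3 y3 z3 x4 y4 z4 x5 y5 z5 x6 y6 z6
      x7 y7 z7 x8 y8 z8 x9 y9 z9 x10 y10 z10 t) f = tabB n B l t fun s =>
      rowB n B x0 y0 z0 l fun r0 =>
      rowB n B x1 y1 z1 l fun r1 =>
      rowB n B x2 y2 z2 l fun r2 =>
      rowB n B x3 y3 z3 l fun r3 =>
      rowB n B x4 y4 z4 l fun r4 =>
      rowB n B x5 y5 z5 l fun r5 =>
      rowB n B x6 y6 z6 l fun r6 =>
      rowB n B x7 y7 z7 l fun r7 =>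
      rowB n B x8 y8 z8 l fun r8 =>
      rowB n B x9 y9 z9 l fun r9 =>
      rowB n B x10 y10 z10 l fun r10 =>
      f (Tb.cons r0 r1 r2 r3 r4 r5 r6 r7 r8 r9 r10 s) := rfl
    rw [e]
    simp only [rowB_eq, tabB_eq n B l t]
    rfl

theorem tabD_eq (n B : Nat) (l : A3) : ∀ g : A3, (tabD n B l g).toL = tabL n B l.toL g.toL
  | .nil => rfl
  | .cons x0 y0 z0 x1 y1 z1 x2 y2 z2 x3 y3 z3 x4 y4 z4 x5 y5 z5 x6 y6 z6 x7 y7 z7 x8 y8 z8 x9
    y9 z9 x10 y10 z10 t => by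
    have e : (tabD n B l (.cons x0 y0 z0 x1 y1 z1 x2 y2 z2 x3 y3 z3 x4 y4 z4 x5 y5 z5 x6 y6 z6
      x7 y7 z7 x8 y8 z8 x9 y9 z9 x10 y10 z10 t)).toL = (rowD n B x0 y0 z0 l).toL :: (rowD n B
      x1 y1 z1 l).toL :: (rowD n B x2 y2 z2 l).toL :: (rowD n B x3 y3 z3 l).toL :: (rowD n B x4
      y4 z4 l).toL :: (rowD n B x5 y5 z5 l).toL :: (rowD n B x6 y6 z6 l).toL :: (rowD n B x7 y7
      z7 l).toL :: (rowD n B x8 y8 z8 l).toL :: (rowD n B x9 y9 z9 l).toL :: (rowD n B x10 y10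
      z10 l).toL :: (tabD n B l t).toL := rfl
    rw [e, tabD_eq n B l t]
    simp only [rowD_eq]
    rfl

/-- the rows applied to the message law -/
noncomputable def matL (v : List Nat) (T : List (List Nat)) : List Nat :=
  List.rec (motive := fun _ => List Nat) [] (fun r _ ih => List.cons (dot r v) ih) T

noncomputable def matD (v : Bk) : Tb → Bk
  | .nil => .nil
  | .cons r0 r1 r2 r3 r4 r5 r6 r7 r8 r9 r10 t => .cons (dotB v r0) (dotB v r1) (dotB v r2)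
    (dotB v r3) (dotB v r4) (dotB v r5) (dotB v r6) (dotB v r7) (dotB v r8) (dotB v r9) (dotB v
    r10) (matD v t)

theorem matB_eq (v : Bk) : ∀ (T : Tb) (f : Bk → Bool), matB v T f = f (matD v T)
  | .nil, f => rfl
  | .cons r0 r1 r2 r3 r4 r5 r6 r7 r8 r9 r10 t, f => by
    have e : matB v (.cons r0 r1 r2 r3 r4 r5 r6 r7 r8 r9 r10 t) f = matB v t fun s =>
      ev (dotB v r0) fun m0 =>
      ev (dotB v r1) fun m1 =>
      ev (dotB v r2) fun m2 =>
      ev (dotB v r3) fun m3 =>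
      ev (dotB v r4) fun m4 =>
      ev (dotB v r5) fun m5 =>
      ev (dotB v r6) fun m6 =>
      ev (dotB v r7) fun m7 =>
      ev (dotB v r8) fun m8 =>
      ev (dotB v r9) fun m9 =>
      ev (dotB v r10) fun m10 =>
      f (Bk.cons m0 m1 m2 m3 m4 m5 m6 m7 m8 m9 m10 s) := rfl
    rw [e]
    simp only [ev_eq, matB_eq v t]
    rfl

theorem matD_eq (v : Bk) : ∀ T : Tb, (matD v T).toL = matL v.toL T.toL
  | .nil => rfl
  | .cons r0 r1 r2 r3 r4 r5 r6 r7 r8 r9 r10 t => by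
    have e : (matD v (.cons r0 r1 r2 r3 r4 r5 r6 r7 r8 r9 r10 t)).toL = dotB v r0 :: dotB v r1
      :: dotB v r2 :: dotB v r3 :: dotB v r4 :: dotB v r5 :: dotB v r6 :: dotB v r7 :: dotB v
      r8 :: dotB v r9 :: dotB v r10 :: (matD v t).toL := rfl
    rw [e, matD_eq v t]
    simp only [dotB_eq]
    rfl

/-- the messages of the state atoms, packed -/
noncomputable def msgL (n B r s : Nat) (g : L3) : List Nat :=
  L3.rec (motive := fun _ => List Nat) []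
    (fun x y z _ ih => List.cons (sortk n B (Nat.add (Nat.mul r x) s) (Nat.add (Nat.mul r y) s)
      (Nat.add (Nat.mul r z) s)) ih) g

noncomputable def msgD (n B r s : Nat) : A3 → Bk
  | .nil => .nil
  | .cons x0 y0 z0 x1 y1 z1 x2 y2 z2 x3 y3 z3 x4 y4 z4 x5 y5 z5 x6 y6 z6 x7 y7 z7 x8 y8 z8 x9
    y9 z9 x10 y10 z10 t => .cons (sortk n B (r * x0 + s) (r * y0 + s) (r * z0 + s)) (sortk n B
    (r * x1 + s) (r * y1 + s) (r * z1 + s)) (sortk n B (r * x2 + s) (r * y2 + s) (r * z2 + s))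
    (sortk n B (r * x3 + s) (r * y3 + s) (r * z3 + s)) (sortk n B (r * x4 + s) (r * y4 + s) (r
    * z4 + s)) (sortk n B (r * x5 + s) (r * y5 + s) (r * z5 + s)) (sortk n B (r * x6 + s) (r *
    y6 + s) (r * z6 + s)) (sortk n B (r * x7 + s) (r * y7 + s) (r * z7 + s)) (sortk n B (r * x8
    + s) (r * y8 + s) (r * z8 + s)) (sortk n B (r * x9 + s) (r * y9 + s) (r * z9 + s)) (sortk n
    B (r * x10 + s) (r * y10 + s) (r * z10 + s)) (msgD n B r s t)

theorem msgB_eq (n B r s : Nat) : ∀ (g : A3) (f : Bk → Bool),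
    msgB n B r s g f = f (msgD n B r s g)
  | .nil, f => rfl
  | .cons x0 y0 z0 x1 y1 z1 x2 y2 z2 x3 y3 z3 x4 y4 z4 x5 y5 z5 x6 y6 z6 x7 y7 z7 x8 y8 z8 x9
    y9 z9 x10 y10 z10 t, f => by
    have e : msgB n B r s (.cons x0 y0 z0 x1 y1 z1 x2 y2 z2 x3 y3 z3 x4 y4 z4 x5 y5 z5 x6 y6 z6
      x7 y7 z7 x8 y8 z8 x9 y9 z9 x10 y10 z10 t) f = msgB n B r s t fun q =>
      ev (sortk n B (Nat.add (Nat.mul r x0) s) (Nat.add (Nat.mul r y0) s)
        (Nat.add (Nat.mul r z0) s)) fun m0 =>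
      ev (sortk n B (Nat.add (Nat.mul r x1) s) (Nat.add (Nat.mul r y1) s)
        (Nat.add (Nat.mul r z1) s)) fun m1 =>
      ev (sortk n B (Nat.add (Nat.mul r x2) s) (Nat.add (Nat.mul r y2) s)
        (Nat.add (Nat.mul r z2) s)) fun m2 =>
      ev (sortk n B (Nat.add (Nat.mul r x3) s) (Nat.add (Nat.mul r y3) s)
        (Nat.add (Nat.mul r z3) s)) fun m3 =>
      ev (sortk n B (Nat.add (Nat.mul r x4) s) (Nat.add (Nat.mul r y4) s)
        (Nat.add (Nat.mul r z4) s)) fun m4 =>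
      ev (sortk n B (Nat.add (Nat.mul r x5) s) (Nat.add (Nat.mul r y5) s)
        (Nat.add (Nat.mul r z5) s)) fun m5 =>
      ev (sortk n B (Nat.add (Nat.mul r x6) s) (Nat.add (Nat.mul r y6) s)
        (Nat.add (Nat.mul r z6) s)) fun m6 =>
      ev (sortk n B (Nat.add (Nat.mul r x7) s) (Nat.add (Nat.mul r y7) s)
        (Nat.add (Nat.mul r z7) s)) fun m7 =>
      ev (sortk n B (Nat.add (Nat.mul r x8) s) (Nat.add (Nat.mul r y8) s)
        (Nat.add (Nat.mul r z8) s)) fun m8 =>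
      ev (sortk n B (Nat.add (Nat.mul r x9) s) (Nat.add (Nat.mul r y9) s)
        (Nat.add (Nat.mul r z9) s)) fun m9 =>
      ev (sortk n B (Nat.add (Nat.mul r x10) s) (Nat.add (Nat.mul r y10) s)
        (Nat.add (Nat.mul r z10) s)) fun m10 =>
      f (Bk.cons m0 m1 m2 m3 m4 m5 m6 m7 m8 m9 m10 q) := rfl
    rw [e]
    simp only [ev_eq, msgB_eq n B r s t]
    rfl

theorem msgD_eq (n B r s : Nat) : ∀ g : A3, (msgD n B r s g).toL = msgL n B r s g.toL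
  | .nil => rfl
  | .cons x0 y0 z0 x1 y1 z1 x2 y2 z2 x3 y3 z3 x4 y4 z4 x5 y5 z5 x6 y6 z6 x7 y7 z7 x8 y8 z8 x9
    y9 z9 x10 y10 z10 t => by
    have e : (msgD n B r s (.cons x0 y0 z0 x1 y1 z1 x2 y2 z2 x3 y3 z3 x4 y4 z4 x5 y5 z5 x6 y6
      z6 x7 y7 z7 x8 y8 z8 x9 y9 z9 x10 y10 z10 t)).toL = sortk n B (r * x0 + s) (r * y0 + s)
      (r * z0 + s) :: sortk n B (r * x1 + s) (r * y1 + s) (r * z1 + s) :: sortk n B (r * x2 +
      s) (r * y2 + s) (r * z2 + s) :: sortk n B (r * x3 + s) (r * y3 + s) (r * z3 + s) :: sortk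
      n B (r * x4 + s) (r * y4 + s) (r * z4 + s) :: sortk n B (r * x5 + s) (r * y5 + s) (r * z5
      + s) :: sortk n B (r * x6 + s) (r * y6 + s) (r * z6 + s) :: sortk n B (r * x7 + s) (r *
      y7 + s) (r * z7 + s) :: sortk n B (r * x8 + s) (r * y8 + s) (r * z8 + s) :: sortk n B (r
      * x9 + s) (r * y9 + s) (r * z9 + s) :: sortk n B (r * x10 + s) (r * y10 + s) (r * z10 +
      s) :: (msgD n B r s t).toL := rfl
    rw [e, msgD_eq n B r s t]
    rfl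

end Vale.Agent.P154.DE
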