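import Vale.Agent.P154.V5Dat

/-! Density evolution, cell PA1: the weights. -/

namespace Vale.Agent.P154.DE

def asPA1 : List Nat :=
    [46509, 45386, 44059, 42535, 40786, 38770, 36432, 33701, 30499, 26741, 22364, 17384, 12016,
    6832, 2769, 580]

def aPA1 : Bk :=
    (.cons 535328 580413 979743 569426 1095092 947817 549082 1083155 1064164 908847 525121 (.cons
    1068188 1086698 1063974 907514 543570 1049556 1089680 1114008 1095143 915946 572469 (.cons
    1123593 1102610 1142397 1165641 1148611 942056 605322 1165231 1167405 1181249 1206867 (.cons
    1249325 1225310 978243 739327 1375482 1296700 1265743 1243364 1273072 1335954 1310666 (.cons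
    1016686 780564 1502775 1473393 1451742 1434559 1399058 1405485 1434880 1410078 1051803 (.cons
    913254 760517 750298 738383 736662 748221 754081 769322 800499 725081 462421 .nil))))))

def wPA1_0 : Bk :=
    (.cons 535328 0 0 580413 0 979743 0 0 0 0 569426 (.cons 0 1095092 0 947817 0 0 0 0 0 0 549082
    (.cons 0 1083155 0 1064164 0 908847 0 0 0 0 0 (.cons 0 0 0 525121 0 1068188 0 1086698 0
    1063974 0 (.cons 907514 0 0 0 0 0 0 0 0 0 0 (.cons 543570 0 1049556 0 1089680 0 1114008 0
    1095143 0 915946 (.cons 0 0 0 0 0 0 0 0 0 0 0 (.cons 0 572469 0 1123593 0 1102610 0 1142397 0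
    1165641 0 (.cons 1148611 0 942056 0 0 0 0 0 0 0 0 (.cons 0 0 0 0 0 0 605322 0 1165231 0
    1167405 (.cons 0 1181249 0 1206867 0 1249325 0 1225310 0 978243 0 (.cons 0 0 0 0 0 0 0 0 0 0
    0 (.cons 0 0 0 0 739327 0 1375482 0 1296700 0 1265743 (.cons 0 1243364 0 1273072 0 1335954 0
    1310666 0 1016686 0 (.cons 0 0 0 0 0 0 0 0 0 0 0 (.cons 0 0 0 0 0 0 780564 0 1502775 0
    1473393 (.cons 0 1451742 0 1434559 0 1399058 0 1405485 0 1434880 0 (.cons 1410078 0 1051803 0
    0 0 0 0 0 0 0 (.cons 0 0 0 0 0 0 0 0 0 0 0 (.cons 0 913254 0 760517 0 750298 0 738383 0
    736662 0 (.cons 748221 0 754081 0 769322 0 800499 0 725081 0 462421 .nil)))))))))))))))))))))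

def wPA1_1 : Bk :=
    (.cons 146558 170006 276432 167381 324883 268647 157414 315321 306634 253849 146533 (.cons
    297750 302439 291964 243858 138928 279026 290713 294803 283943 239577 134567 (.cons 269038
    273861 288279 291043 281771 235905 133440 266393 267095 271147 283902 (.cons 292447 280206
    234772 132461 259039 265453 269692 274533 287491 294197 283856 (.cons 235919 131310 266478
    261337 267144 274236 274929 290112 298481 288189 237281 (.cons 137500 260264 264150 270203
    267787 276941 278651 293873 302115 293200 239341 (.cons 141076 271417 271992 268952 273317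
    274887 281360 288216 296788 313248 299755 (.cons 243468 147149 277057 280765 283345 281771
    277689 283074 289065 292784 306225 (.cons 321211 307997 248145 152601 285776 286364 293710
    285006 290518 294388 292936 (.cons 299959 300847 316450 329829 317975 253206 153859 287247
    294250 302181 292893 (.cons 292550 303980 300555 304087 311386 314378 326257 340547 329717
    258038 178535 (.cons 289664 310585 299070 293209 308841 305384 298804 310677 316925 321896
    327815 (.cons 340221 353348 340759 264681 237921 289623 414931 298377 342564 307786 307213
    (.cons 309615 315624 317470 320365 328583 341724 350687 367536 352829 271116 243364 (.cons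
    292959 459915 297767 436205 312565 389419 310989 355883 309875 327880 328640 (.cons 338558
    347524 361894 380312 366889 276404 243219 293374 460330 301465 441846 (.cons 305567 434075
    314219 421157 315299 407853 324989 367527 340237 357996 368171 (.cons 390006 378755 282304
    240744 298076 465871 301406 441722 306758 429913 314492 (.cons 425517 316220 429716 318798
    437178 334257 430732 356403 409637 394176 394781 (.cons 286471 714841 148689 237957 152080
    231034 156184 218373 154895 215982 159062 (.cons 215930 160497 219722 166157 227186 174822
    238084 191372 241885 190093 132411 .nil)))))))))))))))))))))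

end Vale.Agent.P154.DE
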