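import Vale.Agent.P154.V5Dat

/-! Density evolution, cell PB1: the weights. -/

namespace Vale.Agent.P154.DE

def asPB1 : List Nat :=
    [46909, 45805, 44502, 43005, 41287, 39304, 37002, 34309, 31144, 27417, 23055, 18057, 12612,
    7273, 3001, 642]

def aPB1 : Bk :=
    (.cons 555681 571593 999236 558552 1075507 966405 536986 1062142 1046195 928081 514237 (.cons
    1045194 1067680 1049418 929052 535301 1030827 1069276 1097068 1083154 940110 565281 (.cons
    1108844 1088220 1125068 1151776 1140309 969876 601542 1152995 1153515 1167593 1191832 (.cons
    1239055 1220931 1010910 744666 1384554 1299036 1260508 1234669 1259729 1326524 1310152 (.cons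
    1053349 785099 1512125 1479861 1455395 1436143 1399786 1401978 1431714 1414886 1094348 (.cons
    985294 766907 754755 739550 736596 746440 752634 768399 802763 734547 487015 .nil))))))

def wPB1_0 : Bk :=
    (.cons 555681 0 0 571593 0 999236 0 0 0 0 558552 (.cons 0 1075507 0 966405 0 0 0 0 0 0 536986
    (.cons 0 1062142 0 1046195 0 928081 0 0 0 0 0 (.cons 0 0 0 514237 0 1045194 0 1067680 0
    1049418 0 (.cons 929052 0 0 0 0 0 0 0 0 0 0 (.cons 535301 0 1030827 0 1069276 0 1097068 0
    1083154 0 940110 (.cons 0 0 0 0 0 0 0 0 0 0 0 (.cons 0 565281 0 1108844 0 1088220 0 1125068 0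
    1151776 0 (.cons 1140309 0 969876 0 0 0 0 0 0 0 0 (.cons 0 0 0 0 0 0 601542 0 1152995 0
    1153515 (.cons 0 1167593 0 1191832 0 1239055 0 1220931 0 1010910 0 (.cons 0 0 0 0 0 0 0 0 0 0
    0 (.cons 0 0 0 0 744666 0 1384554 0 1299036 0 1260508 (.cons 0 1234669 0 1259729 0 1326524 0
    1310152 0 1053349 0 (.cons 0 0 0 0 0 0 0 0 0 0 0 (.cons 0 0 0 0 0 0 785099 0 1512125 0
    1479861 (.cons 0 1455395 0 1436143 0 1399786 0 1401978 0 1431714 0 (.cons 1414886 0 1094348 0
    0 0 0 0 0 0 0 (.cons 0 0 0 0 0 0 0 0 0 0 0 (.cons 0 985294 0 766907 0 754755 0 739550 0
    736596 0 (.cons 746440 0 752634 0 768399 0 802763 0 734547 0 487015 .nil)))))))))))))))))))))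

def wPB1_1 : Bk :=
    (.cons 35055 71803 83222 90454 159094 91343 101337 189269 165992 93622 107340 (.cons 207594
    196443 168990 94854 112543 218621 215437 201429 172443 97027 118249 (.cons 228338 226271
    223523 207612 177527 98781 125206 243452 237443 232461 229079 (.cons 214980 181753 100747
    131365 252550 251716 248610 242926 239511 222774 189007 (.cons 103440 137649 272939 263712
    263885 260002 250347 247952 231173 195735 106147 (.cons 149495 281351 280752 279527 270956
    270070 260475 256877 238668 202628 108637 (.cons 159238 303599 299428 292413 289472 285207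
    280816 273692 265157 251299 210037 (.cons 111666 173317 322999 321334 319349 311232 301620
    297552 294334 283537 278624 (.cons 261870 218205 115406 187715 345668 342483 345691 329486
    328130 323505 312893 (.cons 308531 295945 291173 272507 227430 118346 196738 360735 365850
    371174 352125 (.cons 346255 350964 336293 330732 324452 311928 303506 284221 237631 121416
    220498 (.cons 375690 394014 380879 366978 380643 366979 352619 354958 349650 340249 328408
    (.cons 318732 296684 246851 125102 297503 384707 509712 391718 417155 394660 379075 (.cons
    378343 378644 367364 359151 352733 346236 332101 310330 256052 128367 320549 (.cons 397176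
    600244 398259 546185 410882 463440 397630 418589 374923 380964 373072 (.cons 367623 356172
    345526 322969 266253 130986 333940 403926 628442 409136 587005 (.cons 408816 550704 411484
    505670 395760 465254 384442 400312 373306 365984 354606 (.cons 333013 274626 133300 339387
    414654 656553 414822 606228 415365 572265 418161 (.cons 537739 408940 517141 391173 491259
    384680 442725 369461 379789 337783 283128 (.cons 135328 821381 208027 337173 211062 319573
    213192 294954 207670 280479 208710 (.cons 265206 202324 255701 196993 244114 192029 227376
    182690 187319 131920 55301 .nil)))))))))))))))))))))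

end Vale.Agent.P154.DE
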