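import Vale.Agent.P154.V5Dat

/-! Density evolution, cell PC1: the weights. -/

namespace Vale.Agent.P154.DE

def asPC1 : List Nat :=
    [47297, 46211, 44931, 43461, 41773, 39823, 37556, 34901, 31773, 28079, 23736, 18725, 13210,
    7722, 3242, 708]

def aPC1 : Bk :=
    (.cons 583417 565778 1027057 549511 1060125 991543 525689 1043416 1031193 952734 503376
    (.cons 1022668 1049985 1037016 955527 526483 1011426 1048622 1080690 1072716 968969 556688
    (.cons 1091983 1072367 1106814 1138045 1133230 1002425 596111 1137345 1136323 1151286 1174935
    (.cons 1228362 1217547 1048605 747683 1390009 1298335 1252209 1223168 1243888 1315858 1310397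
    (.cons 1095288 785590 1514667 1480144 1453652 1433369 1397360 1396392 1427689 1420693 1142914
    (.cons 1060592 769467 755856 737299 733447 741908 748971 766087 804959 745545 515421
    .nil))))))

def wPC1_0 : Bk :=
    (.cons 583417 0 0 565778 0 1027057 0 0 0 0 549511 (.cons 0 1060125 0 991543 0 0 0 0 0 0
    525689 (.cons 0 1043416 0 1031193 0 952734 0 0 0 0 0 (.cons 0 0 0 503376 0 1022668 0 1049985
    0 1037016 0 (.cons 955527 0 0 0 0 0 0 0 0 0 0 (.cons 526483 0 1011426 0 1048622 0 1080690 0
    1072716 0 968969 (.cons 0 0 0 0 0 0 0 0 0 0 0 (.cons 0 556688 0 1091983 0 1072367 0 1106814 0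
    1138045 0 (.cons 1133230 0 1002425 0 0 0 0 0 0 0 0 (.cons 0 0 0 0 0 0 596111 0 1137345 0
    1136323 (.cons 0 1151286 0 1174935 0 1228362 0 1217547 0 1048605 0 (.cons 0 0 0 0 0 0 0 0 0 0
    0 (.cons 0 0 0 0 747683 0 1390009 0 1298335 0 1252209 (.cons 0 1223168 0 1243888 0 1315858 0
    1310397 0 1095288 0 (.cons 0 0 0 0 0 0 0 0 0 0 0 (.cons 0 0 0 0 0 0 785590 0 1514667 0
    1480144 (.cons 0 1453652 0 1433369 0 1397360 0 1396392 0 1427689 0 (.cons 1420693 0 1142914 0
    0 0 0 0 0 0 0 (.cons 0 0 0 0 0 0 0 0 0 0 0 (.cons 0 1060592 0 769467 0 755856 0 737299 0
    733447 0 (.cons 741908 0 748971 0 766087 0 804959 0 745545 0 515421 .nil)))))))))))))))))))))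

def wPC1_1 : Bk :=
    (.cons 39137 76239 92230 93496 166315 100080 102843 193720 171969 101879 107596 (.cons 209284
    199657 174346 102957 111951 217871 216278 204249 177488 105163 116863 (.cons 226525 224802
    223877 210091 182595 106930 123386 240393 235126 230719 228961 (.cons 217586 186912 109110
    129303 248461 248155 245895 241044 239240 225217 194358 (.cons 112015 134961 268267 259314
    259650 257005 248399 247636 233874 201388 115045 (.cons 146800 275924 275426 274842 266810
    266656 258414 256650 241619 208639 117806 (.cons 156928 298193 294269 287283 284905 280568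
    277366 271719 264836 254526 216529 (.cons 121185 170565 317253 316063 314464 306458 296971
    293447 290777 281481 278424 (.cons 265340 225230 125340 184376 339201 336132 340286 324018
    322956 319442 309245 (.cons 305536 294077 291160 276375 234981 128801 193096 353520 359064
    364451 345597 (.cons 340384 345649 331867 326656 321752 310642 304053 288488 245819 132315
    221549 (.cons 367522 388571 373534 359558 373968 360933 346285 349927 345480 337491 327350
    (.cons 319768 301785 255747 136500 300417 376463 517887 383429 418563 387112 373191 (.cons
    371599 372389 362067 354551 349367 345193 333291 315994 265884 140258 321297 (.cons 388483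
    601226 390012 549584 402798 469273 390068 418984 368221 376475 368071 (.cons 364030 354707
    346723 329131 277067 143402 334540 394844 630479 400643 585993 (.cons 400471 549859 403358
    507572 388662 469444 378749 401895 369284 365645 355478 (.cons 339272 286146 146220 340422
    405603 658870 405854 607140 406741 570655 409995 (.cons 536038 400842 515897 384267 492951
    379614 448558 368107 386568 343921 296199 (.cons 148603 896219 203532 338764 206374 320711
    208696 294037 203479 279367 204731 (.cons 264137 198521 255031 193949 244047 189833 230962
    183292 196746 138433 61933 .nil)))))))))))))))))))))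

end Vale.Agent.P154.DE
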