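import Vale.Agent.P154.V5Dat

/-! Density evolution, cell PD1: the weights. -/

namespace Vale.Agent.P154.DE

def asPD1 : List Nat :=
    [47673, 46605, 45348, 43904, 42245, 40328, 38096, 35479, 32389, 28729, 24407, 19388, 13810,
    8180, 3494, 778]

def aPD1 : Bk :=
    (.cons 605974 557090 1046457 539135 1041121 1009624 514177 1023338 1013657 971322 493037
    (.cons 1000466 1031623 1022557 976446 518615 993606 1029025 1064019 1060420 992593 549341
    (.cons 1077190 1058487 1089888 1124432 1124450 1029901 592734 1124933 1121580 1136976 1159446
    (.cons 1217790 1212369 1081363 752894 1400094 1302200 1247618 1214569 1229865 1305160 1308609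
    (.cons 1132225 788391 1522076 1484671 1455680 1433941 1397797 1393243 1424213 1424311 1186635
    (.cons 1141907 774794 759733 737141 732190 738871 746254 764284 806894 755164 542258
    .nil))))))

def wPD1_0 : Bk :=
    (.cons 605974 0 0 557090 0 1046457 0 0 0 0 539135 (.cons 0 1041121 0 1009624 0 0 0 0 0 0
    514177 (.cons 0 1023338 0 1013657 0 971322 0 0 0 0 0 (.cons 0 0 0 493037 0 1000466 0 1031623
    0 1022557 0 (.cons 976446 0 0 0 0 0 0 0 0 0 0 (.cons 518615 0 993606 0 1029025 0 1064019 0
    1060420 0 992593 (.cons 0 0 0 0 0 0 0 0 0 0 0 (.cons 0 549341 0 1077190 0 1058487 0 1089888 0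
    1124432 0 (.cons 1124450 0 1029901 0 0 0 0 0 0 0 0 (.cons 0 0 0 0 0 0 592734 0 1124933 0
    1121580 (.cons 0 1136976 0 1159446 0 1217790 0 1212369 0 1081363 0 (.cons 0 0 0 0 0 0 0 0 0 0
    0 (.cons 0 0 0 0 752894 0 1400094 0 1302200 0 1247618 (.cons 0 1214569 0 1229865 0 1305160 0
    1308609 0 1132225 0 (.cons 0 0 0 0 0 0 0 0 0 0 0 (.cons 0 0 0 0 0 0 788391 0 1522076 0
    1484671 (.cons 0 1455680 0 1433941 0 1397797 0 1393243 0 1424213 0 (.cons 1424311 0 1186635 0
    0 0 0 0 0 0 0 (.cons 0 0 0 0 0 0 0 0 0 0 0 (.cons 0 1141907 0 774794 0 759733 0 737141 0
    732190 0 (.cons 738871 0 746254 0 764284 0 806894 0 755164 0 542258 .nil)))))))))))))))))))))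

def wPD1_1 : Bk :=
    (.cons 40484 74981 94618 91420 162992 102763 100136 189178 168442 104694 104619 (.cons 203840
    194944 170982 106008 109047 211848 210834 199751 174390 108501 113906 (.cons 220802 218996
    218447 205834 179766 110538 120509 234665 229687 225236 223740 (.cons 213558 184405 113060
    126666 243152 242590 240601 235823 234250 221480 192096 (.cons 116315 132435 263048 254288
    254221 251909 243513 242904 230446 199474 119648 (.cons 144726 271455 270625 269938 261962
    261654 253821 252234 238596 207104 122824 (.cons 155538 294544 290598 283210 280792 275896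
    272639 267411 260685 251725 215369 (.cons 126581 169435 314344 312981 311562 303140 293289
    289585 286588 277481 274544 (.cons 262869 224490 131093 183419 336789 333463 337982 321226
    319648 316410 306147 (.cons 302001 290620 287642 274191 234612 135085 192719 351504 357295
    362545 342825 (.cons 338002 342936 329113 323499 318615 307797 301257 286765 245886 139007
    226159 (.cons 366073 390908 372085 357675 372102 358830 343483 347144 342584 334597 324735
    (.cons 317320 300674 256332 143660 307402 375680 531104 382443 426692 386107 373968 (.cons
    369482 370188 359400 351779 346410 342777 331048 315345 267056 147877 328308 (.cons 388150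
    613464 389802 559422 402263 478491 388939 424751 366095 376324 365377 (.cons 361140 352135
    344465 328631 278757 151524 342724 395037 646058 400673 596518 (.cons 400334 557512 402848
    513776 387213 475674 376594 405877 366381 365272 353090 (.cons 338786 288111 154818 350274
    406175 677304 406185 621503 406984 579902 409792 (.cons 542511 399871 520305 382373 496188
    377223 452324 365854 389806 343433 300165 (.cons 157276 979722 204054 348904 206602 329408
    208810 299253 203620 283151 204592 (.cons 266427 197756 256462 192785 244771 188326 232029
    182042 199983 139689 67769 .nil)))))))))))))))))))))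

end Vale.Agent.P154.DE
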