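import Vale.Agent.P154.VPDc_000
import Vale.Agent.P154.VPDc_010
import Vale.Agent.P154.VPDc_100
import Vale.Agent.P154.VPDc_110
import Vale.Agent.P154.VPDc_200
import Vale.Agent.P154.VPDc_210
import Vale.Agent.P154.VPDc_300
import Vale.Agent.P154.VPDc_310
import Vale.Agent.P154.VPDc_400
import Vale.Agent.P154.VPDc_410
import Vale.Agent.P154.VPDc_001
import Vale.Agent.P154.VPDc_011
import Vale.Agent.P154.VPDc_101
import Vale.Agent.P154.VPDc_111
import Vale.Agent.P154.VPDc_201
import Vale.Agent.P154.VPDc_211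
import Vale.Agent.P154.VPDc_301
import Vale.Agent.P154.VPDc_311
import Vale.Agent.P154.VPDc_401

/-! Generated certificates. -/

namespace Vale.Agent.P154

def PDc_q00 : Piece := ⟨PDc_000, PDc_010, [0, 3289340000000, 18313350000000, -61962690000000, 73702405000000, -23519790000000], 9081⟩

theorem PDc_q00_cert : PDc_q00.Cert vPD :=
  ⟨PDc_000_pw, PDc_010_pw, PDc_000_w, PDc_010_w⟩

def PDc_q10 : Piece := ⟨PDc_100, PDc_110, [0, -1866650000000, 19075145000000, -32282955000000, 37005075000000, -12551960000000], 18162⟩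

theorem PDc_q10_cert : PDc_q10.Cert vPD :=
  ⟨PDc_100_pw, PDc_110_pw, PDc_100_w, PDc_110_w⟩

def PDc_q20 : Piece := ⟨PDc_200, PDc_210, [0, -297655000000, 12799165000000, -26188595000000, 40269190000000, -17258945000000], 27243⟩

theorem PDc_q20_cert : PDc_q20.Cert vPD :=
  ⟨PDc_200_pw, PDc_210_pw, PDc_200_w, PDc_210_w⟩

def PDc_q30 : Piece := ⟨PDc_300, PDc_310, [0, -691165000000, 11124225000000, -19781445000000, 32313225000000, -13449970000000], 36324⟩

theorem PDc_q30_cert : PDc_q30.Cert vPD :=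
  ⟨PDc_300_pw, PDc_310_pw, PDc_300_w, PDc_310_w⟩

def PDc_q40 : Piece := ⟨PDc_400, PDc_410, [0, -3218710000000, 13031235000000, -40667745000000, 89336860000000, -49395595000000], 45405⟩

theorem PDc_q40_cert : PDc_q40.Cert vPD :=
  ⟨PDc_400_pw, PDc_410_pw, PDc_400_w, PDc_410_w⟩

def PDc_q01 : Piece := ⟨PDc_001, PDc_011, [0, 3556725000000, 23166640000000, -83222320000000, 116766525000000, -45450405000000], 9081⟩

theorem PDc_q01_cert : PDc_q01.Cert vPD :=
  ⟨PDc_001_pw, PDc_011_pw, PDc_001_w, PDc_011_w⟩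

def PDc_q11 : Piece := ⟨PDc_101, PDc_111, [0, -3062315000000, 27056335000000, -44885365000000, 51529630000000, -16103640000000], 18162⟩

theorem PDc_q11_cert : PDc_q11.Cert vPD :=
  ⟨PDc_101_pw, PDc_111_pw, PDc_101_w, PDc_111_w⟩

def PDc_q21 : Piece := ⟨PDc_201, PDc_211, [0, -847560000000, 17788670000000, -35814455000000, 56342560000000, -23060695000000], 27243⟩

theorem PDc_q21_cert : PDc_q21.Cert vPD :=
  ⟨PDc_201_pw, PDc_211_pw, PDc_201_w, PDc_211_w⟩

def PDc_q31 : Piece := ⟨PDc_301, PDc_311, [0, -1175485000000, 15018965000000, -27828220000000, 48966770000000, -21284855000000], 36324⟩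

theorem PDc_q31_cert : PDc_q31.Cert vPD :=
  ⟨PDc_301_pw, PDc_311_pw, PDc_301_w, PDc_311_w⟩

def PDc_q41 : Piece := ⟨PDc_401, PDc_411, [0, -4424465000000, 15927065000000, -4252935000000, 11078820000000, -4000685000000], 45405⟩

theorem PDc_q41_cert : PDc_q41.Cert vPD :=
  ⟨PDc_401_pw, PDc_411_pw, PDc_401_w, PDc_411_w⟩

def PDc : PMi := ⟨90810000000000, 10090, [0, 306147753000000, 20305116000000, 60960753000000, -25363233000000, 29476926000000], [PDc_q00, PDc_q10, PDc_q20, PDc_q30, PDc_q40], [0, 319528606500000, 24555024000000, 66314002500000, -11787138000000, 27088623000000], [PDc_q01, PDc_q11, PDc_q21, PDc_q31, PDc_q41], 4, 125, 23, 500, -260170650000, -8325460800, -190701000000, -8772246000, 90810000⟩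

theorem PDc_certP : PDc.Cert vPD :=
  ⟨by decide +kernel, ⟨PDc_q00_cert, PDc_q10_cert, PDc_q20_cert, PDc_q30_cert, PDc_q40_cert, trivial⟩, ⟨PDc_q01_cert, PDc_q11_cert, PDc_q21_cert, PDc_q31_cert, PDc_q41_cert, trivial⟩,
    ⟨176, .leaf, by decide +kernel⟩, ⟨176, .leaf, by decide +kernel⟩⟩

end Vale.Agent.P154
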