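import Vale.Agent.P154.VIS9

/-! Generated certificates. -/

namespace Vale.Agent.P154

def S9pb_411 : Cfg2 := ⟨⟨201800000000, 853351660000, -313899900000, 490199039400, 544994600600, -1210779820000, 672478320000, 7157846, 905428168000, -228875506000, 893643048000, -1298685918000, 913903768000, 0, 853109500000, -315090520000, 1069318020000, -1122815200000, 769463400000, -71578460, -451144080000, -1582777940000, 1512369920000, 879060980000, -1655082880000⟩, 68719476736, 4096, 352, 208⟩

def S9pb_411_c0 : Cert2 :=
  .su 0 (.su 0 (.su 2 (.sv 2 (.leaf ⟨[68722776444,-138116482572,236995063284], [214256,0,0], [69125281798,-214481955191,405005991061], [214256,0,0], [69297317500,-366190988310,1148593920039], [214256,0,0], [⟨3624, 4568, [4125,4155], [4391,4450], [4273,4287]⟩]⟩) (.sv 1 (.leaf ⟨[68717917889,-137430084644,208341226106,-281313869027,-419120210447], [3285118,-7174021,-3012928937,4829494480,1086661898403], [68719569218,-206177036840,413480032745,-709172875845,1074410017116], [1207352,0,0,0,0], [68718066442,-343579295692,1032938612224,-2434345009356,4134771936353], [2731620,0,-2366370244,0,902242424211], [⟨3504, 4688, [3800,4096,4392],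 [4096], [3800,4096,4392]⟩]⟩) (.leaf ⟨[68719482224,-137436976837,206101183754,-277055608718,468861137687], [2472647,0,0,0,0], [68719445243,-206159110201,412638329643,-681959677490,443950139065], [2504140,2732936,-311276782,-11576782971,753471976404], [68719437711,-343601481096,1031143772091,-2365569831304,2816197529189], [2517410,6206013,-392077073,-42678579607,1924345853574], [⟨3152, 5040, [4096], [4096], [4096,4568]⟩]⟩))) (.leaf ⟨[68719476736,-137449345208,207338148342,-292349403376,374205504092], [1275163,0,0,0,0], [68719476736,-206236560909,420039304550,-762179811828,1030629430532], [1275163,0,0,0,0], [68643025545,-342560892435,1069663054544,-2533322034644,2483140276169], [77726355,-817311168,-26185388450,150487360818,2611848425482], [⟨3152, 5984, [3860,4568], [3860,4214,4568,4745], [3594,3683,3771,4125,4302,4391,5408,5430]⟩]⟩)) (.leaf ⟨[68719476736,-137594696190,218287638260,-399773267924,632337378101], [2612163,0,0,0,0], [68719476736,-206737101876,491862269731,-1126711837710,1325314319685], [2612163,0,0,0,0], [68719476736,-344449425773,1254621435499,-3181462210106,3262013694429], [2612163,-708558,113960944,16378246905,387882971144],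 [⟨2208, 5984, [4096,4568,4804], [4096,4214,5335,5512], [2503,2562,3152,4096,4214,5600,5630]⟩]⟩)) (.su 1 (.leaf ⟨[68704342920,-137287574093,219362993048,-333432157874,297885745001], [23008287,436372555,1195112824,-13827563006,19619583998], [69217645562,-223943518757,584695740361,-1170173999909,1045328155879], [62016024,556698410,-1706474678,-14109579487,38155482558], [68237153158,-330566027340,939323498522,-1879668136949,1897492580451], [500695875,-12080926932,78218110451,-47601688770,-152529704941], [⟨324, 5984, [1562,1739,3154,3861,4215,5453,5630], [1517,1562,3507,4215,4392,4480,5276,5630,5718], [2446,2623,4038,4215,4392,4480,5276,5320]⟩]⟩) (.leaf ⟨[68718963588,-137376207325,235472097523,-374726780064,297894488739], [1329600,2556307,1149327669,-8878635823,16988224553], [68719308238,-206258021369,461229109990,-948743683390,1042153505408], [1348777,-642260,341927866,-9190711911,62581514289], [68719180021,-343821342954,1123505281002,-2444276636201,2279270589790], [1297446,-39317671,16641003156,-112350317420,191134632298], [⟨1740, 5984, [3994,4127,4923,5851,5917], [1872,2005,3994,4127,5188,5320], [2668,2801,4060,4127,5188,5320,5618,5634]⟩]⟩))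

theorem S9pb_411_h0 : S9pb_411_c0.check S9pb_411 (baseTri 1 1)
    (baseTriN 4600 10000) = true := by decide +kernel

def S9pb_411_C : Cert2 :=
  S9pb_411_c0

theorem S9pb_411_check : S9pb_411_C.check S9pb_411 (baseTri 1 1) (baseTriN 4600 10000) = true :=
  S9pb_411_h0

theorem S9pb_411_pw : PWCert vS9 S9pb_411 := ⟨by decide +kernel, S9pb_411_C, S9pb_411_check⟩
theorem S9pb_411_w : WCert vS9 S9pb_411 := ⟨152, .leaf, by decide +kernel⟩

end Vale.Agent.P154
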