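import Vale.Agent.P154.VS9pb_000
import Vale.Agent.P154.VS9pb_010
import Vale.Agent.P154.VS9pb_110
import Vale.Agent.P154.VS9pb_200
import Vale.Agent.P154.VS9pb_210
import Vale.Agent.P154.VS9pb_300
import Vale.Agent.P154.VS9pb_310
import Vale.Agent.P154.VS9pb_410
import Vale.Agent.P154.VS9pb_001
import Vale.Agent.P154.VS9pb_011
import Vale.Agent.P154.VS9pb_101
import Vale.Agent.P154.VS9pb_111
import Vale.Agent.P154.VS9pb_201
import Vale.Agent.P154.VS9pb_211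
import Vale.Agent.P154.VS9pb_301
import Vale.Agent.P154.VS9pb_311
import Vale.Agent.P154.VS9pb_411

/-! Generated certificates. -/

namespace Vale.Agent.P154

def S9pb_q00 : Piece := ⟨S9pb_000, S9pb_010, [0, -4540500000, 67199400000, -163094760000, 240182360000, -103361960000], 1009⟩

theorem S9pb_q00_cert : S9pb_q00.Cert vS9 :=
  ⟨S9pb_000_pw, S9pb_010_pw, S9pb_000_w, S9pb_010_w⟩

def S9pb_q10 : Piece := ⟨S9pb_100, S9pb_110, [0, 2845380000, 48230200000, -118254800000, 193445480000, -89316680000], 2018⟩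

theorem S9pb_q10_cert : S9pb_q10.Cert vS9 :=
  ⟨S9pb_100_pw, S9pb_110_pw, S9pb_100_w, S9pb_110_w⟩

def S9pb_q20 : Piece := ⟨S9pb_200, S9pb_210, [0, -2320700000, 46212200000, -50813240000, 85684280000, -42378000000], 3027⟩

theorem S9pb_q20_cert : S9pb_q20.Cert vS9 :=
  ⟨S9pb_200_pw, S9pb_210_pw, S9pb_200_w, S9pb_210_w⟩

def S9pb_q30 : Piece := ⟨S9pb_300, S9pb_310, [0, -847560000, 36041480000, -11260440000, 36949580000, -25103920000], 4036⟩

theorem S9pb_q30_cert : S9pb_q30.Cert vS9 :=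
  ⟨S9pb_300_pw, S9pb_310_pw, S9pb_300_w, S9pb_310_w⟩

def S9pb_q40 : Piece := ⟨S9pb_400, S9pb_410, [0, -8273800000, 26032200000, 9202080000, 22843760000, -58643080000], 5045⟩

theorem S9pb_q40_cert : S9pb_q40.Cert vS9 :=
  ⟨S9pb_400_pw, S9pb_410_pw, S9pb_400_w, S9pb_410_w⟩

def S9pb_q01 : Piece := ⟨S9pb_001, S9pb_011, [0, -12935380000, 120071000000, -318036800000, 508152580000, -212394500000], 1009⟩

theorem S9pb_q01_cert : S9pb_q01.Cert vS9 :=
  ⟨S9pb_001_pw, S9pb_011_pw, S9pb_001_w, S9pb_011_w⟩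

def S9pb_q11 : Piece := ⟨S9pb_101, S9pb_111, [0, 2583040000, 99063620000, -230637220000, 339508320000, -124510600000], 2018⟩

theorem S9pb_q11_cert : S9pb_q11.Cert vS9 :=
  ⟨S9pb_101_pw, S9pb_111_pw, S9pb_101_w, S9pb_111_w⟩

def S9pb_q21 : Piece := ⟨S9pb_201, S9pb_211, [0, 14791940000, 66715080000, -161460180000, 278645440000, -127355980000], 3027⟩

theorem S9pb_q21_cert : S9pb_q21.Cert vS9 :=
  ⟨S9pb_201_pw, S9pb_211_pw, S9pb_201_w, S9pb_211_w⟩

def S9pb_q31 : Piece := ⟨S9pb_301, S9pb_311, [0, 6235620000, 66432560000, -45626980000, 106267880000, -61549000000], 4036⟩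

theorem S9pb_q31_cert : S9pb_q31.Cert vS9 :=
  ⟨S9pb_301_pw, S9pb_311_pw, S9pb_301_w, S9pb_311_w⟩

def S9pb_q41 : Piece := ⟨S9pb_401, S9pb_411, [0, -6962100000, 73253400000, -9686400000, 0, -75917160000], 5045⟩

theorem S9pb_q41_cert : S9pb_q41.Cert vS9 :=
  ⟨S9pb_401_pw, S9pb_411_pw, S9pb_401_w, S9pb_411_w⟩

def S9pb : PMi := ⟨201800000000, 1009, [0, 745146500000, 73556100000, 206461580000, -80235680000, 75695180000], [S9pb_q00, S9pb_q10, S9pb_q20, S9pb_q30, S9pb_q40], [0, 857064780000, 111635760000, 269746060000, 21794400000, 70751080000], [S9pb_q01, S9pb_q11, S9pb_q21, S9pb_q31, S9pb_q41], 1, 20, 1, 10, -1691084000, -84554200, -1689066000, -168906600, 201800⟩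

theorem S9pb_certP : S9pb.Cert vS9 :=
  ⟨by decide +kernel, ⟨S9pb_q00_cert, S9pb_q10_cert, S9pb_q20_cert, S9pb_q30_cert, S9pb_q40_cert, trivial⟩, ⟨S9pb_q01_cert, S9pb_q11_cert, S9pb_q21_cert, S9pb_q31_cert, S9pb_q41_cert, trivial⟩,
    ⟨208, .leaf, by decide +kernel⟩, ⟨208, .leaf, by decide +kernel⟩⟩

end Vale.Agent.P154
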