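import Vale.Agent.P154.VS9pc_000
import Vale.Agent.P154.VS9pc_100
import Vale.Agent.P154.VS9pc_110
import Vale.Agent.P154.VS9pc_200
import Vale.Agent.P154.VS9pc_210
import Vale.Agent.P154.VS9pc_300
import Vale.Agent.P154.VS9pc_310
import Vale.Agent.P154.VS9pc_400
import Vale.Agent.P154.VS9pc_001
import Vale.Agent.P154.VS9pc_201

/-! Generated certificates. -/

namespace Vale.Agent.P154

def S9pc_q00 : Piece := ⟨S9pc_000, S9pc_010, [0, -10259007500000, 14279872500000, -35620222500000, 99603435000000, -54286722500000], 1009⟩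

theorem S9pc_q00_cert : S9pc_q00.Cert vS9 :=
  ⟨S9pc_000_pw, S9pc_010_pw, S9pc_000_w, S9pc_010_w⟩

def S9pc_q10 : Piece := ⟨S9pc_100, S9pc_110, [0, 4386627500000, 19112982500000, -35171217500000, 35834635000000, -9799912500000], 2018⟩

theorem S9pc_q10_cert : S9pc_q10.Cert vS9 :=
  ⟨S9pc_100_pw, S9pc_110_pw, S9pc_100_w, S9pc_110_w⟩

def S9pc_q20 : Piece := ⟨S9pc_200, S9pc_210, [0, 6841020000000, 11974307500000, -18600915000000, 12319890000000, 1591697500000], 3027⟩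

theorem S9pc_q20_cert : S9pc_q20.Cert vS9 :=
  ⟨S9pc_200_pw, S9pc_210_pw, S9pc_200_w, S9pc_210_w⟩

def S9pc_q30 : Piece := ⟨S9pc_300, S9pc_310, [0, 6134720000000, 5546977500000, -6109495000000, 11739715000000, -3947712500000], 4036⟩

theorem S9pc_q30_cert : S9pc_q30.Cert vS9 :=
  ⟨S9pc_300_pw, S9pc_310_pw, S9pc_300_w, S9pc_310_w⟩

def S9pc_q40 : Piece := ⟨S9pc_400, S9pc_410, [0, 3188440000000, 3884650000000, 14971037500000, -14191585000000, 1314222500000], 5045⟩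

theorem S9pc_q40_cert : S9pc_q40.Cert vS9 :=
  ⟨S9pc_400_pw, S9pc_410_pw, S9pc_400_w, S9pc_410_w⟩

def S9pc_q01 : Piece := ⟨S9pc_001, S9pc_011, [0, -30761887500000, 45157795000000, -23915822500000, 81726477500000, -42173677500000], 1009⟩

theorem S9pc_q01_cert : S9pc_q01.Cert vS9 :=
  ⟨S9pc_001_pw, S9pc_011_pw, S9pc_001_w, S9pc_011_w⟩

def S9pc_q11 : Piece := ⟨S9pc_101, S9pc_111, [0, 7068045000000, 34833202500000, -69166950000000, 86763910000000, -26985705000000], 2018⟩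

theorem S9pc_q11_cert : S9pc_q11.Cert vS9 :=
  ⟨S9pc_101_pw, S9pc_111_pw, S9pc_101_w, S9pc_111_w⟩

def S9pc_q21 : Piece := ⟨S9pc_201, S9pc_211, [0, 15856435000000, 34522935000000, -44660862500000, 277475000000, 26773815000000], 3027⟩

theorem S9pc_q21_cert : S9pc_q21.Cert vS9 :=
  ⟨S9pc_201_pw, S9pc_211_pw, S9pc_201_w, S9pc_211_w⟩

def S9pc_q31 : Piece := ⟨S9pc_301, S9pc_311, [0, 17632275000000, 20767742500000, -31092335000000, 0, 14796985000000], 4036⟩

theorem S9pc_q31_cert : S9pc_q31.Cert vS9 :=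
  ⟨S9pc_301_pw, S9pc_311_pw, S9pc_301_w, S9pc_311_w⟩

def S9pc_q41 : Piece := ⟨S9pc_401, S9pc_411, [0, 12597365000000, -12597365000000, -1937280000000, 0, -60487027500000], 5045⟩

theorem S9pc_q41_cert : S9pc_q41.Cert vS9 :=
  ⟨S9pc_401_pw, S9pc_411_pw, S9pc_401_w, S9pc_411_w⟩

def S9pc : PMi := ⟨25225000000000, 1009, [0, 126175450000000, 16961290000000, 41205037500000, 8152720000000, 1072062500000], [S9pc_q00, S9pc_q10, S9pc_q20, S9pc_q30, S9pc_q40], [0, 108878667500000, 36586340000000, 58885240000000, 17422907500000, -7075612500000], [S9pc_q01, S9pc_q11, S9pc_q21, S9pc_q31, S9pc_q41], 1, 10, 529, 2500, -917433250000, -91743325000, -917181000000, -194075499600, 25225000⟩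

theorem S9pc_certP : S9pc.Cert vS9 :=
  ⟨by decide +kernel, ⟨S9pc_q00_cert, S9pc_q10_cert, S9pc_q20_cert, S9pc_q30_cert, S9pc_q40_cert, trivial⟩, ⟨S9pc_q01_cert, S9pc_q11_cert, S9pc_q21_cert, S9pc_q31_cert, S9pc_q41_cert, trivial⟩,
    ⟨216, .leaf, by decide +kernel⟩, ⟨216, .leaf, by decide +kernel⟩⟩

end Vale.Agent.P154
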