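import Vale.Agent.P154.VIA2

/-! Generated certificates. -/

namespace Vale.Agent.P154

def nA2h_1 : Cfg2 := ⟨⟨2000000, 19920000, -3994000, 4810000, 0, 0, 0, 40, 19936995, -3928125, 4840005, -299360, 194200, 0, 20000000, -5178000, 13468000, -20000000, 19868000, -2000, -12048000, -20000000, 18122000, 14968000, -9710000⟩, 268435456, 4096, 200, 200⟩

def nA2h_1_c0 : Cert2 :=
  .sv 0 (.leaf ⟨[268435456,-536870912,824660576,-999217278,1230605612,-4114827416,9170340617,-6572839562], [], [268435456,-805306368,1709780750,-3767927009,8109427868,-10376161840,5047260417], [], [], [], [⟨1636, 6556, [4096,5326], [4096,5326], []⟩]⟩) (.leaf ⟨[268435456,-536870912,812034457,-1134736605,1801328382,-2649473047,2271291903,-753632766], [], [268435456,-805306368,2028202953,-5023329781,8179530912,-6665087116,2053715598], [], [], [], [⟨1636, 9012, [4096,6554], [4096,5939,8397], []⟩]⟩)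

theorem nA2h_1_h0 : nA2h_1_c0.check nA2h_1 (baseTri 1 1)
    (baseTri 12 20) = true := by decide +kernel

def nA2h_1_C : Cert2 :=
  nA2h_1_c0

theorem nA2h_1_check : nA2h_1_C.check nA2h_1 (baseTri 1 1) (baseTri 12 20) = true :=
  nA2h_1_h0

theorem nA2h_1_pw : PWCert vA2 nA2h_1 := ⟨by decide +kernel, nA2h_1_C, nA2h_1_check⟩
theorem nA2h_1_w : WCert vA2 nA2h_1 := ⟨80, .leaf, by decide +kernel⟩
theorem nA2h_1_g : GCert nA2h_1 := ⟨48, .leaf, by decide +kernel⟩

def nA2h_0 : Cfg2 := ⟨⟨2000000, 18814000, -5644000, 6748000, 0, 0, 0, 40, 18822475, -5655645, 6799485, -86680, 49280, 0, 19130000, -7694000, 7096000, 20000000, -9580000, -2000, -11622000, -16124000, 17048000, 4334000, -2464000⟩, 268435456, 4096, 224, 200⟩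

def nA2h_0_c0 : Cert2 :=
  .su 0 (.sv 0 (.leaf ⟨[268435456,-536870912,840442649,-1260180227,1322240897], [], [268435456,-805306368,1681494745,-3267371423,4450199856], [], [], [], [⟨2864, 5328, [4096], [4096,4712], []⟩]⟩) (.leaf ⟨[268435456,-536870912,820157198,-1098337589,1350794766,-1967186963,3690991540,-3278610970], [], [268435456,-805306368,2009848147,-7934837029,28943758595,-54173073413,37638239043], [], [], [], [⟨1636, 6556, [4096], [4096,4711,5941], []⟩]⟩)) (.su 1 (.sv 0 (.leaf ⟨[268435456,-536870912,826487798,-1091171491,1253207937,-2007572422,3985530600,-3328509551], [], [268435456,-805306368,1706235013,-3641815739,7735009660,-10924533495,6503616955], [], [], [], [⟨1636, 6556, [4096], [4096,5326], []⟩]⟩) (.leaf ⟨[268926322,-536346373,777483657,-1043504974,1748221199,-2770723749,2483434559,-846266289], [346797,0,0,0,0,0], [268435027,-819164983,1801275244,-3517109753,5097453742,-4066368924,1269566042], [779604,352534,-16559994,-295280,163071651,-126430981], [], [], [⟨1636, 9012, [3480,5324,6246,7168],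 [2097,3480,4402,5324,8435,8551], []⟩]⟩)) (.leaf ⟨[268435456,-536870912,817050943,-1098076253,1437989218,-2238152904,3461078783,-2338226182], [], [268435456,-805306368,1674024741,-3476532456,7675550961,-11202331331,6556340809], [], [], [], [⟨1636, 7172, [4096], [4096,5634,6403], []⟩]⟩))

theorem nA2h_0_h0 : nA2h_0_c0.check nA2h_0 (baseTri 1 1)
    (baseTri 12 20) = true := by decide +kernel

def nA2h_0_C : Cert2 :=
  nA2h_0_c0

theorem nA2h_0_check : nA2h_0_C.check nA2h_0 (baseTri 1 1) (baseTri 12 20) = true :=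
  nA2h_0_h0

theorem nA2h_0_pw : PWCert vA2 nA2h_0 := ⟨by decide +kernel, nA2h_0_C, nA2h_0_check⟩
theorem nA2h_0_w : WCert vA2 nA2h_0 := ⟨80, .leaf, by decide +kernel⟩
theorem nA2h_0_g : GCert nA2h_0 := ⟨48, .leaf, by decide +kernel⟩

end Vale.Agent.P154
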